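import Vale.Agent.P366Q.A.Defs
import Vale.Agent.P366M.End1
import Vale.Agent.P366Z.St0.Ext

/-!
# P366Q, block A: the transfer between the end of the manifold and Euclidean space
-/

open MeasureTheory Metric Filter Topology Set
open scoped ContDiff ENNReal
open Vale.Agent.P366 Vale.Agent.P366.Stmt Vale.Agent.P366Z

noncomputable section

namespace Vale.Agent.P366M.Y.A

variable {n : ℕ} {M : Type} [Mfe n M] {x : M} {y : E n} {g K : Fld n M} {G L : Field n}
  {u v : M → ℝ} {U V b : E n → ℝ} {q C R ρ m : ℝ}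

/-- `U` is `u` in the coordinates of the end -/
def Tw {α : Type} (u : M → α) (U : E n → α) : Prop := ∀ y, R0 M + 1 / 2 ≤ ‖y‖ → U y = fe u y

section

variable {α : Type} {f : M → α} {F : E n → α}

theorem Tw.eq (h : Tw f F) (hx : R0 M + 1 / 2 ≤ ‖px x‖) : F (px x) = f x := by
  rw [h _ hx, fe, yp_px (by linarith)]

theorem Tw.ev (h : Tw f F) (hy : R0 M + 1 / 2 < ‖y‖) : fe f =ᶠ[𝓝 y] F :=
  (ev_lt_norm hy).mono fun z hz => (h z hz.le).symm

theorem tw_of (h : ∀ x : M, R0 M + 1 / 2 ≤ ‖px x‖ → F (px x) = f x) : Tw f F := fun y hy => by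
  have e : px (yp y : M) = y := px_yp (by linarith)
  have := h (yp y) (by rwa [e])
  rwa [e] at this

theorem tw_px (F : E n → α) : Tw (fun x : M => F (px x)) F := tw_of fun _ _ => rfl

theorem tw_fe (f : M → α) : Tw f (fe f) := fun _ _ => rfl

end

theorem ye_px (hx : R0 M + 1 / 2 < ‖px x‖) : ye Mfe.o (px x) = x := yp_px (by linarith)

theorem Tw.evc (h : Tw g G) (hy : R0 M + 1 / 2 < ‖y‖) (i j : Fin n) :
    (fun z => fe g z i j) =ᶠ[𝓝 y] fun z => G z i j := (h.ev hy).mono fun z hz => by simp only [hz]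

theorem Tw.pd (hu : Tw u U) (hx : R0 M + 1 / 2 < ‖px x‖) (i : Fin n) :
    pd i u x = Stmt.pd i U (px x) := by
  have := pd_ye (j := Mfe.o) (y := px x) (by linarith) i u
  rw [ye_px hx] at this
  exact this.trans (P366Z.pd_congr (hu.ev hx) i)

theorem Tw.fd (hu : Tw u U) (hx : R0 M + 1 / 2 < ‖px x‖) : fd u x = fderiv ℝ U (px x) := by
  have := fd_ye (j := Mfe.o) (y := px x) (by linarith) u
  rw [ye_px hx] at this
  exact this.trans (hu.ev hx).fderiv_eq

theorem Tw.up (hg : Tw g G) (hx : R0 M + 1 / 2 ≤ ‖px x‖) (i j : Fin n) :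
    up g i j x = Stmt.up G i j (px x) := by
  unfold P366M.up Stmt.up P366M.mat Stmt.mat
  rw [hg.eq hx]

theorem Tw.tr (hg : Tw g G) (hK : Tw K L) (hx : R0 M + 1 / 2 ≤ ‖px x‖) :
    tr g K x = Stmt.tr G L (px x) := by
  unfold P366M.tr Stmt.tr
  simp only [hg.up hx, hK.eq hx]

theorem Tw.normSq (hg : Tw g G) (hK : Tw K L) (hx : R0 M + 1 / 2 ≤ ‖px x‖) :
    normSq g K x = Stmt.normSq G L (px x) := by
  unfold P366M.normSq Stmt.normSq
  simp only [hg.up hx, hK.eq hx]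

theorem Tw.cov (hg : Tw g G) (hx : R0 M + 1 / 2 ≤ ‖px x‖) (ξ : Fin n → ℝ) :
    covNorm g (fun i _ => ξ i) x = Stmt.covNorm G (fun i _ => ξ i) (px x) := by
  unfold P366M.covNorm Stmt.covNorm
  simp only [hg.up hx]

theorem Tw.dens (hg : Tw g G) (hx : R0 M + 1 / 2 ≤ ‖px x‖) : dens g x = P366Z.dens G (px x) := by
  rw [dens_far (by linarith)]
  unfold P366Z.dens P366M.mat Stmt.mat
  rw [hg.eq hx]

theorem Tw.ip (hg : Tw g G) (hu : Tw u U) (hv : Tw v V) (hx : R0 M + 1 / 2 < ‖px x‖) :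
    ip g u v x = P366Z.ip G U V (px x) := by
  unfold P366M.ip P366Z.ip
  simp only [hg.up hx.le, hu.pd hx, hv.pd hx]

theorem Tw.gn (hg : Tw g G) (hu : Tw u U) (hx : R0 M + 1 / 2 < ‖px x‖) :
    gn g u x = P366Z.gn G U (px x) := by
  unfold P366M.gn P366Z.gn
  rw [hg.ip hu hu hx]

theorem Tw.lap (hg : Tw g G) (hu : Tw u U) (hx : R0 M + 1 / 2 < ‖px x‖) :
    lap g u x = P366Z.lap G U (px x) := by
  have := lap_ye (j := Mfe.o) (y := px x) (by linarith) g u
  rw [ye_px hx] at this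
  exact this.trans ((P366Z.lap_of_ev (hg.ev hx) _).trans (P366Z.lap_congr (hu.ev hx)))

theorem Tw.scal (hg : Tw g G) (hx : R0 M + 1 / 2 < ‖px x‖) : scal g x = Stmt.scal G (px x) := by
  have := scal_ye (j := Mfe.o) (y := px x) (by linarith) g
  rw [ye_px hx] at this
  exact this.trans (P366Z.scal_of_ev (hg.ev hx))

theorem Tw.cl (hg : Tw g G) (hu : Tw u U) (hx : R0 M + 1 / 2 < ‖px x‖) :
    cl g u x = P366Z.cl G U (px x) := by
  unfold P366M.cl P366Z.cl
  rw [hg.lap hu hx, hg.scal hx, hu.eq hx.le]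

theorem Tw.hess (hg : Tw g G) (hu : Tw u U) (hx : R0 M + 1 / 2 < ‖px x‖) :
    hess g u x = Stmt.hess G U (px x) := by
  have := hess_ye (j := Mfe.o) (y := px x) (by linarith) g u
  rw [ye_px hx] at this
  refine this.trans ?_
  funext a c
  have h1 := hu.ev hx
  unfold Stmt.hess
  simp only [← fe_eq, P366Z.chr_of_ev (hg.ev hx), P366Z.pd_congr h1,
    P366Z.pd_congr (P366Z.pd_congr_ev h1 c)]

theorem Tw.dvT (hg : Tw g G) (hK : Tw K L) (hx : R0 M + 1 / 2 < ‖px x‖) (a : Fin n) :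
    dvT g K a x = P366Z.dvT G L a (px x) := by
  have := dvT_ye (j := Mfe.o) (y := px x) (by linarith) g K a
  rw [ye_px hx] at this
  refine this.trans ?_
  have h1 := hg.ev hx
  unfold P366Z.dvT
  simp only [← fe_eq, P366Z.chr_of_ev h1, P366Z.up_of_eq h1.eq_of_nhds,
    P366Z.pd_congr (hK.evc hx _ _), (hK.ev hx).eq_of_nhds]

theorem Tw.momT (hg : Tw g G) (hK : Tw K L) : Tw (momT g K) (Stmt.momT G L) := tw_of fun x hx => by
  funext i j
  unfold P366M.momT Stmt.momT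
  rw [hg.tr hK hx, hg.eq hx, hK.eq hx]

theorem Tw.mom (hg : Tw g G) (hK : Tw K L) (hx : R0 M + 1 / 2 < ‖px x‖) (a : Fin n) :
    mom g K a x = Stmt.mom G L a (px x) := by
  rw [mom_eq_dvT, hg.dvT (hg.momT hK) hx]
  rfl

theorem Tw.cm (hg : Tw g G) (hK : Tw K L) (hx : R0 M + 1 / 2 < ‖px x‖) :
    covNorm g (P366M.mom g K) x = Stmt.covNorm G (Stmt.mom G L) (px x) := by
  unfold P366M.covNorm Stmt.covNorm
  simp only [hg.up hx.le, hg.mom hK hx]

theorem Tw.mu (hg : Tw g G) (hK : Tw K L) (hx : R0 M + 1 / 2 < ‖px x‖) :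
    mu g K x = Stmt.mu G L (px x) := by
  unfold P366M.mu Stmt.mu
  rw [hg.scal hx, hg.tr hK hx.le, hg.normSq hK hx.le]

theorem Tw.cf (hg : Tw g G) (hu : Tw u U) : Tw (cf u g) (P366Z.cf U G) := tw_of fun x hx => by
  funext i j
  unfold P366M.cf P366Z.cf
  rw [hg.eq hx, hu.eq hx]

theorem Tw.ck (hK : Tw K L) (hu : Tw u U) : Tw (ck u K) (P366Y.A.ck U L) := tw_of fun x hx => by
  funext i j
  unfold A.ck P366Y.A.ck
  rw [hK.eq hx, hu.eq hx]

theorem Tw.gc (hg : Tw g G) (ρ : ℝ) : Tw (gc g ρ) (St0.gc G ρ) := tw_of fun x hx => by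
  funext i j
  unfold A.gc St0.gc
  rw [hg.eq hx, bg_far (by linarith)]
  rfl

theorem Tw.er (hg : Tw g G) (ρ : ℝ) (hx : R0 M + 1 / 2 < ‖px x‖) :
    er g ρ x = St0.fe G ρ (px x) := by
  unfold A.er St0.fe
  rw [(hg.gc ρ).scal hx, hg.scal hx]
  rfl

theorem Tw.lin (hu : Tw u U) (hv : Tw v V) (s t : ℝ) :
    Tw (fun x => s * u x + t * v x) fun y => s * U y + t * V y := tw_of fun x hx => by
  rw [hu.eq hx, hv.eq hx]

theorem Tw.af (hg : Tw g G) (hR : R0 M + 1 / 2 < R) : Af g q C R ↔ St0.Af G q C R := by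
  refine forall₂_congr fun y hy => forall₄_congr fun i j k l => ?_
  have h1 := hg.evc (hR.trans_le hy) i j
  rw [h1.eq_of_nhds, P366Z.pd_congr h1, P366Z.pd_congr (P366Z.pd_congr_ev h1 k)]

theorem Tw.ak (hK : Tw K L) (hR : R0 M + 1 / 2 < R) : Ak K q C R ↔ P366Y.B.Ak L q C R := by
  refine forall₂_congr fun y hy => forall₃_congr fun i j k => ?_
  have h1 := hK.evc (hR.trans_le hy) i j
  rw [h1.eq_of_nhds, P366Z.pd_congr h1]

theorem Tw.asy {a β : ℝ} (hu : Tw u U) : Asy u a β ↔ P366Z.Asy U a β := by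
  have h : ∀ {U V : E n → ℝ}, (∀ y, R0 M + 1 ≤ ‖y‖ → U =ᶠ[𝓝 y] V) → P366Z.Asy U a β →
      P366Z.Asy V a β := fun e ⟨C, R, h⟩ => ⟨C, max R (R0 M + 1), fun y hy => by
    have e' := e y ((le_max_right _ _).trans hy)
    simp only [← e'.eq_of_nhds, ← P366Z.pd_congr e']
    exact h y ((le_max_left _ _).trans hy)⟩
  rw [asy_iff]
  exact ⟨h fun y hy => hu.ev (by linarith), h fun y hy => (hu.ev (by linarith)).symm⟩

theorem Tw.flat (hg : Tw g G) (hρ : R0 M + 1 ≤ ρ) : Flat g ρ ↔ P366Z.Flat G ρ := by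
  refine ⟨fun h y hy => ?_, fun h => ⟨hρ, fun x hx => ?_⟩⟩
  · rw [hg y (by linarith)]
    exact h.eq _ (by rwa [px_yp (by linarith)])
  · rw [← hg.eq (by linarith)]
    exact h _ hx

theorem Tw.flx {W : Fin n → Field n → E n → ℝ} (hg : Tw g G)
    (hW : ∀ i y G G', G =ᶠ[𝓝 y] G' → W i G y = W i G' y) :
    flx (fun i => W i (fe g)) =ᶠ[atTop] flx fun i => W i G := by
  filter_upwards [eventually_ge_atTop (R0 M + 1)] with r hr
  exact St0.ExtA.flx_congr (by linarith [R0_ge M]) fun i y hy =>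
    hW i y _ _ (hg.ev (by linarith))

/-! ### the extensions -/

theorem sm_xc : Stmt.Smooth (xc M) :=
  Real.smoothTransition.contDiff.comp (P366Z.contDiff_normSq.sub contDiff_const)

theorem xc_nonneg (y : E n) : 0 ≤ xc M y := Real.smoothTransition.nonneg _

theorem xc_le_one (y : E n) : xc M y ≤ 1 := Real.smoothTransition.le_one _

theorem xc_zero (h : ‖y‖ ≤ R0 M + 1 / 4) : xc M y = 0 :=
  Real.smoothTransition.zero_of_nonpos (sub_nonpos.2 (pow_le_pow_left₀ (norm_nonneg _) h 2))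

theorem xc_one (h : R0 M + 1 / 2 ≤ ‖y‖) : xc M y = 1 := by
  have h0 := R0_ge M
  have := pow_le_pow_left₀ (by linarith) h 2
  exact Real.smoothTransition.one_of_one_le (by nlinarith)

theorem sm_xc_mul {f : E n → ℝ} (h : ∀ y, R0 M < ‖y‖ → ContDiffAt ℝ ∞ f y) :
    Stmt.Smooth fun y => xc M y * f y := contDiff_iff_contDiffAt.2 fun y => by
  rcases lt_or_ge (R0 M) ‖y‖ with k | k
  · exact (ContDiff.contDiffAt sm_xc).mul (h y k)
  · refine (contDiffAt_const (c := 0)).congr_of_eventuallyEq ?_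
    filter_upwards [(isOpen_lt continuous_norm continuous_const).mem_nhds
      (show ‖y‖ < R0 M + 1 / 4 by linarith)] with z hz
    rw [xc_zero (le_of_lt hz), zero_mul]

theorem tw_xf (c : ℝ) (u : M → ℝ) : Tw u (xf c u) := fun y hy => by
  rw [xf, xc_one hy]; ring

theorem tw_xg (g : Fld n M) : Tw g (xg g) := fun y hy => by
  funext i j
  rw [xg, xc_one hy]; ring

theorem tw_xk (K : Fld n M) : Tw K (xk K) := fun y hy => by
  funext i j
  rw [xk, xc_one hy]; ring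

theorem sm_xf (c : ℝ) (hu : Smooth u) : Stmt.Smooth (xf c u) :=
  ContDiff.add (sm_xc_mul fun _ hy => CD.fj_at hu hy.le)
    (ContDiff.mul (contDiff_const.sub sm_xc) contDiff_const)

theorem xf_mem {c a a' : ℝ} (hu : ∀ x, a ≤ u x ∧ u x ≤ a') (hc : a ≤ c ∧ c ≤ a') (y : E n) :
    a ≤ xf c u y ∧ xf c u y ≤ a' := by
  have h0 := xc_nonneg (M := M) y
  have h1 := sub_nonneg.2 (xc_le_one (M := M) y)
  have h2 := hu (yp y)
  unfold xf fe
  constructor <;> nlinarith [mul_nonneg h0 (sub_nonneg.2 h2.1), mul_nonneg h0 (sub_nonneg.2 h2.2),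
    mul_nonneg h1 (sub_nonneg.2 hc.1), mul_nonneg h1 (sub_nonneg.2 hc.2)]

theorem posDef_mix {A B : Matrix (Fin n) (Fin n) ℝ} (hA : A.PosDef) (hB : B.PosDef) {t : ℝ}
    (h0 : 0 ≤ t) (h1 : t ≤ 1) : (t • A + (1 - t) • B).PosDef := by
  rcases h0.lt_or_eq with k | k
  · exact (hA.smul k).add_posSemidef (hB.posSemidef.smul (sub_nonneg.2 h1))
  · simpa [← k] using hB

theorem met_xg (hg : Met g) : P366Z.Met (xg g) where
  sm i j := ContDiff.add (sm_xc_mul fun _ hy => hg.sm.fj_at hy i j)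
    (ContDiff.mul (contDiff_const.sub sm_xc) (met_eu.sm i j))
  sy y i j := by rw [xg, xg, fe, hg.sy, met_eu.sy y i j]
  pos y := posDef_mix (hg.pos (yp y)) (met_eu.pos y) (xc_nonneg y) (xc_le_one y)

theorem Sy.xk (hK : Sy K) : P366Y.A.Sy (xk K) where
  sm i j := sm_xc_mul fun _ hy => hK.sm.fj_at hy i j
  sy y i j := by rw [A.xk, A.xk, fe, hK.sy]

theorem B0.old (h : B0 g q C R m) : P366Y.A.B0 (xg g) q C R m where
  dim := h.dim
  met := met_xg h.met
  q0 := h.q0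
  C0 := h.C0
  R1 := by linarith [h.R1, R0_ge M]
  af := ((tw_xg g).af (by linarith [h.R1])).1 h.af
  en := h.en.congr' ((tw_xg g).flx (W := fun i G y => St0.yv G i y / 2) fun i y G G' e => by
    have e' : ∀ a c, (fun z => G z a c) =ᶠ[𝓝 y] fun z => G' z a c := fun a c =>
      e.mono fun z hz => by simp only [hz]
    simp only [St0.yv, P366Z.pd_congr (e' _ _)])

/-! ### functions of the position which are constant in the core -/

theorem ev_core {c : ℝ} (hb : ∀ y, ‖y‖ < R0 M + 1 → b y = c) (hx : ‖px x‖ < R0 M + 1) :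
    ((fun z : M => b (px z)) =ᶠ[𝓝 x] fun _ => c) ∧ b =ᶠ[𝓝 (px x)] fun _ => c :=
  ⟨(ev_px_lt hx).mono fun _ hz => hb _ hz,
    Eventually.mono ((isOpen_lt continuous_norm continuous_const).mem_nhds hx) hb⟩

theorem Tw.lap_px {c : ℝ} (hg : Tw g G) (hb : ∀ y, ‖y‖ < R0 M + 1 → b y = c) (x : M) :
    P366M.lap g (fun z => b (px z)) x = P366Z.lap G b (px x) := by
  rcases lt_or_ge ‖px x‖ (R0 M + 1) with k | k
  · rw [lap_congr (ev_core hb k).1, P366Z.lap_congr (ev_core hb k).2, lap_const, P366Z.lap_const]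
  · exact hg.lap (tw_px b) (by linarith)

theorem Tw.gn_px {c : ℝ} (hg : Tw g G) (hb : ∀ y, ‖y‖ < R0 M + 1 → b y = c) (x : M) :
    P366M.gn g (fun z => b (px z)) x = P366Z.gn G b (px x) := by
  rcases lt_or_ge ‖px x‖ (R0 M + 1) with k | k
  · rw [gn_congr (ev_core hb k).1, P366Z.gn_congr (ev_core hb k).2,
      gn_zero fun i => pd_const c i x, P366Z.gn_zero fun i => P366Z.pd_const c i _]
  · exact hg.gn (tw_px b) (by linarith)

theorem fd_px_core {c : ℝ} (hb : ∀ y, ‖y‖ < R0 M + 1 → b y = c) (x : M) :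
    fd (fun z => b (px z)) x = fderiv ℝ b (px x) := by
  rcases lt_or_ge ‖px x‖ (R0 M + 1) with k | k
  · rw [fd_congr (ev_core hb k).1, (ev_core hb k).2.fderiv_eq, fd_const, fderiv_const_apply]
  · exact fd_px (by linarith) b

theorem asy_lin {a a' β β' : ℝ} (hu : Asy u a β) (hv : Asy v a' β') (su : Smooth u) (sv : Smooth v)
    (s t : ℝ) : Asy (fun x => s * u x + t * v x) (s * a + t * a') (s * β + t * β') := by
  obtain ⟨C, R, hu⟩ := hu
  obtain ⟨C', R', hv⟩ := hv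
  refine ⟨|s| * C + |t| * C', max R R', fun x hx => ?_⟩
  obtain ⟨a1, a2⟩ := hu x ((le_max_left _ _).trans hx)
  obtain ⟨b1, b2⟩ := hv x ((le_max_right _ _).trans hx)
  have k : ∀ {A B P : ℝ}, |A| ≤ C * P → |B| ≤ C' * P → |s * A + t * B| ≤ (|s| * C + |t| * C') * P :=
    fun h1 h2 => (abs_add_le _ _).trans (by
      rw [abs_mul, abs_mul]
      linarith [mul_le_mul_of_nonneg_left h1 (abs_nonneg s),
        mul_le_mul_of_nonneg_left h2 (abs_nonneg t)])
  refine ⟨le_of_eq_of_le (congrArg _ (by ring)) (k a1 b1), fun i =>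
    le_of_eq_of_le (congrArg _ ?_) (k (a2 i) (b2 i))⟩
  rw [pd_add ((su.diff x).const_mul s) ((sv.diff x).const_mul t), pd_const_mul, pd_const_mul]
  ring

/-! ### the cut-off function -/

theorem sm_cut (r : ℝ) : Smooth (cut r : M → ℝ) := smooth_px (P366Z.sm_cut r)

theorem cut_nonneg (r : ℝ) (x : M) : 0 ≤ cut r x := P366Z.cut_nonneg r _

theorem cut_le_one (r : ℝ) (x : M) : cut r x ≤ 1 := P366Z.cut_le_one r _

theorem cut_one {r : ℝ} (hx : ‖px x‖ ≤ r) : cut r x = 1 := P366Z.cut_one hx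

theorem cut_zero {r : ℝ} (hr : 0 < r) (hx : 2 * r ≤ ‖px x‖) : cut r x = 0 := P366Z.cut_zero hr hx

theorem cpt_of {S : Set M} (hS : IsClosed S) (h : ∀ x ∈ S, ‖px x‖ ≤ R) : IsCompact S :=
  (isCompact_px M R).of_isClosed_subset hS h

end Vale.Agent.P366M.Y.A
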