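import Vale.Agent.P366Q.A.Usk
import Vale.Agent.P366Q.G.Defs
import Vale.Agent.P366Y.A.Cvx

/-!
# P366Q, block A: convexity of the radius, the bubble, the comparison of the metrics
-/

open MeasureTheory Metric Filter Topology Set
open scoped ContDiff ENNReal
open Vale.Agent.P366 Vale.Agent.P366.Stmt Vale.Agent.P366Z

noncomputable section

namespace Vale.Agent.P366M.Y.A

variable {n : ℕ} {M : Type} [Mfe n M] {g K : Fld n M} {F U p : M → ℝ} {q C R m : ℝ}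

theorem ex_px {y : E n} (hy : R0 M ≤ ‖y‖) : ∃ x : M, px x = y := ⟨yp y, px_yp (by linarith)⟩

/-- **CVX**: the square of the radius is convex -/
theorem cvx (hn : 3 ≤ n) (hB : B0 g q C R m) : ∃ e > (0 : ℝ), ∃ r₀ : ℝ, ∀ (U : M → ℝ) (ρ : ℝ)
    (x : M), Smooth U → (∀ y, |U y - 1| ≤ e) → r₀ ≤ ‖px x‖ → ‖px x‖ < ρ →
    ‖px x‖ * ‖fd U x‖ ≤ e → ∀ ξ : Fin n → ℝ,
      0 ≤ ∑ i, ∑ j, hess (cf U (gc g ρ)) (fun y => ‖px y‖ ^ 2) x i j * ξ i * ξ j := by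
  obtain ⟨e, e0, h⟩ := P366Y.A.cvx_of St0.mat0 n hn
  have n3 : (3 : ℝ) ≤ n := by exact_mod_cast hn
  have := (tendsto_rpow_neg_atTop (show 0 < q by linarith [hB.q0])).const_mul C
  rw [mul_zero] at this
  obtain ⟨r, hr⟩ := eventually_atTop.1 (this.eventually (ge_mem_nhds e0))
  refine ⟨min e (1 / 2), by positivity, max r R, fun U ρ x hU h1 h2 h3 h4 ξ => ?_⟩
  have k1 := (le_max_right _ _).trans h2
  have k2 := hr _ ((le_max_left _ _).trans h2)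
  have k3 : R0 M + 1 / 2 < ‖px x‖ := by linarith [hB.R1]
  have x0 : 0 < ‖px x‖ := by linarith [R0_ge M]
  have e1 : cf U (gc g ρ) =ᶠ[𝓝 x] cf U g := (gc_ev (g := g) h3).mono fun y hy => by
    funext i j
    simp only [cf, hy]
  rw [hess_of_ev e1, ((tw_xg g).cf (tw_xf 1 U)).hess (tw_px fun y => ‖y‖ ^ 2) k3]
  refine h _ _ _ hB.old.met (sm_xf 1 hU) (fun y => ?_) ?_ ?_ (fun i j l => ?_) ξ
  · refine lt_of_lt_of_le (show (0 : ℝ) < 1 / 2 by norm_num)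
      (xf_mem (a' := 3 / 2) (fun z => ?_) (by norm_num) y).1
    have := abs_le.1 ((h1 z).trans (min_le_right _ _))
    constructor <;> linarith
  · rw [(tw_xf 1 U).eq k3.le]
    exact (h1 x).trans (min_le_left _ _)
  · rw [← (tw_xf 1 U).fd k3]
    exact h4.trans (min_le_left _ _)
  · have af := hB.old.af _ k1 i j l l
    refine ⟨af.1.trans k2, (mul_le_mul_of_nonneg_left af.2.1 x0.le).trans (le_of_eq_of_le ?_ k2)⟩
    rw [neg_add', Real.rpow_sub_one x0.ne']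
    field_simp

/-- **VPI**: the bubble that is cut off -/
theorem vpi {r ρ η δ : ℝ} (hn : 3 ≤ n) (hg : Met g) (hf : Flat g ρ) (hU : Smooth U)
    (hr : R0 M + 1 ≤ r) (hρ : r + 1 < ρ) (hη : 0 < η) (hδ : 0 < δ)
    (p1 : ∀ x, r ≤ ‖px x‖ → ‖px x‖ ≤ ρ → 0 < cl g U x) (p2 : ∀ x, ρ ≤ ‖px x‖ → 0 ≤ cl g U x) :
    ∃ ϖ β, Smooth ϖ ∧ (∀ x, 0 ≤ ϖ x ∧ ϖ x ≤ 1 / 8) ∧
      (∀ x, ‖px x‖ ≤ r → ϖ x = 0) ∧ Asy ϖ 0 β ∧ β ≤ η ∧ (∃ C, ∀ x, ‖fd (lap g ϖ) x‖ ≤ C) ∧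
      (∀ x, r ≤ ‖px x‖ → 0 < cl g U x / 2 + cl g ϖ x) ∧
      ∀ x, ρ ≤ ‖px x‖ → -(δ * ‖px x‖ ^ (-(n + 2) : ℝ)) ≤ lap g ϖ x ∧ lap g ϖ x ≤ 0 := by
  have h0 := R0_ge M
  have tw := tw_xg g
  obtain ⟨w, β, a1, a2, a3, a4, a5, ⟨A, a6⟩, a7, a8⟩ := P366Y.A.vpi_of St0.bub0 P366Z.asy n _ _ r ρ
    η δ hn (met_xg hg) ((tw.flat hf.R).1 hf) (sm_xf 1 hU) (by linarith) hρ hη hδ
    (fun y h1 h2 => by
      obtain ⟨x, rfl⟩ := ex_px (M := M) (y := y) (by linarith)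
      exact tw.cl (tw_xf 1 U) (x := x) (by linarith) ▸ p1 x h1 h2)
    fun y h1 => by
      obtain ⟨x, rfl⟩ := ex_px (M := M) (y := y) (by linarith)
      exact tw.cl (tw_xf 1 U) (x := x) (by linarith) ▸ p2 x h1
  have c : ∀ y, ‖y‖ < R0 M + 1 → w y = 0 := fun y hy => a3 y (by linarith)
  refine ⟨fun x => w (px x), β, smooth_px a1, fun x => a2 _, fun x => a3 _, (tw_px w).asy.2 a4, a5,
    ⟨A, fun x => ?_⟩, fun x hx => ?_, fun x hx => ?_⟩
  · rw [funext (tw.lap_px c), fd_px_core (c := 0) fun y hy => ?_]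
    · exact a6 _
    · rw [P366Z.lap_congr (v := fun _ => 0) (Eventually.mono
        ((isOpen_lt continuous_norm continuous_const).mem_nhds hy) c), P366Z.lap_const]
  · rw [tw.cl (tw_xf 1 U) (by linarith), tw.cl (tw_px w) (by linarith)]
    exact a7 _ hx
  · rw [tw.lap_px c]
    exact a8 _ hx

/-- **CMP**: the comparison of the metrics -/
theorem cmp {D : Exterior n M} (hB : B0 D.g q C R m) {η κ : ℝ} (κ0 : 0 < κ) (κ1 : κ ≤ 1 / 8)
    (κ2 : κ ≤ η / 8) : ∃ ρ₀, ∀ ρ ≥ ρ₀, ∀ U : M → ℝ, (∀ x, 1 - κ ≤ U x) → G.Cmp D η (gc D.g ρ) U := by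
  have hn := hB.dim
  have n3 : (3 : ℝ) ≤ n := by exact_mod_cast hn
  have h0 := R0_ge M
  have R1 := hB.R1
  obtain ⟨e, e0, he⟩ := St0.cmp_of St0.mat0 n κ κ0
  obtain ⟨C', -, hc⟩ := St0.cutm n q C hB.C0
  have := (tendsto_rpow_neg_atTop (show 0 < q by linarith [hB.q0])).const_mul (max C C')
  rw [mul_zero] at this
  obtain ⟨r, hr⟩ := eventually_atTop.1 (this.eventually (ge_mem_nhds e0))
  refine ⟨max r R, fun ρ hρ U hU x _ ξ => ?_⟩
  have r1 := (le_max_left _ _).trans hρ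
  have r2 := (le_max_right _ _).trans hρ
  obtain ⟨g1, -, g3, -⟩ := hc _ R ρ hB.old.met hB.old.af (by linarith) r2
  have a0 : 0 ≤ dens D.g x * covNorm D.g (fun i _ => ξ i) x :=
    mul_nonneg (dens_nonneg _ _) (Real.sqrt_nonneg _)
  have a1 : (1 - κ) * (dens D.g x * covNorm D.g (fun i _ => ξ i) x) ≤
      covNorm (gc D.g ρ) (fun i _ => ξ i) x * dens (gc D.g ρ) x := by
    rcases le_total ‖px x‖ ρ with k | k
    · have e2 : covNorm (gc D.g ρ) (fun i _ => ξ i) x = covNorm D.g (fun i _ => ξ i) x := by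
        unfold covNorm; simp only [up_of_eq (gc_in k)]
      rw [e2, dens_of_eq (gc_in k)]
      nlinarith
    · have k1 := hr _ (r1.trans k)
      have k2 : 0 ≤ ‖px x‖ ^ (-q) := Real.rpow_nonneg (norm_nonneg _) _
      have k3 : R0 M + 1 / 2 ≤ ‖px x‖ := by linarith
      rw [(tw_xg D.g).dens k3, (tw_xg D.g).cov k3, ((tw_xg D.g).gc ρ).dens k3,
        ((tw_xg D.g).gc ρ).cov k3]
      exact he _ _ _ hB.old.met g1
        (fun i j => ((hB.old.af _ (r2.trans k) i j i i).1.trans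
          (mul_le_mul_of_nonneg_right (le_max_left _ _) k2)).trans k1)
        (fun i j => ((g3 _ (r2.trans k) i j i i).1.trans
          (mul_le_mul_of_nonneg_right (le_max_right _ _) k2)).trans k1) ξ
  have a2 := St0.Asm.pw κ0.le κ1 (hU x) (p := 2 * gam n) (by linarith [one_lt_gam hn])
    (by linarith [gam_le hn])
  rw [mul_assoc]
  calc (1 - η) * (dens D.g x * covNorm D.g (fun i _ => ξ i) x)
      ≤ (1 - 4 * κ) * (1 - κ) * (dens D.g x * covNorm D.g (fun i _ => ξ i) x) :=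
        mul_le_mul_of_nonneg_right (by nlinarith) a0
    _ ≤ _ := by
        rw [mul_assoc]
        exact mul_le_mul a2 a1 (mul_nonneg (by linarith) a0) (by linarith)

theorem scal_flat {ρ : ℝ} (hn : 3 ≤ n) (hg : Met g) (hf : Flat g ρ) {x : M} (hx : ρ ≤ ‖px x‖) :
    scal g x = 0 := by
  rw [(tw_xg g).scal (by linarith [hf.R])]
  exact (((tw_xg g).flat hf.R).1 hf).scal_eq' (by omega) (met_xg hg) hx

/-- the conformal Laplacian in the far region -/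
theorem far_cl (hB : Bk g K F q C R m) {κ r ρ β : ℝ} (hU : Fk g K F p m κ r ρ U β)
    (κ1 : κ ≤ 1 / 8) (hr : R ≤ r) {x : M} (h1 : r ≤ ‖px x‖) (h2 : ‖px x‖ ≤ 2 * ρ) :
    2 * normSq g K x < cl (gc g ρ) U x := by
  have a1 := hU.pos x h1 h2
  have a2 := (Real.sqrt_nonneg _).trans (hB.dec x (by linarith [hB.far x (hr.trans h1)]))
  have a3 := abs_le.1 (hU.bd x)
  have a4 : 0 ≤ normSq g K x := Fin1.nsq0 hB.met hB.sy x
  have a5 : -(tr g K x ^ 2) ≤ scal g x := by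
    unfold mu at a2
    linarith
  have c0 := cut_nonneg ρ x
  have c1 := cut_le_one ρ x
  have a6 : -(tr g K x ^ 2) ≤ cut ρ x * scal g x := by nlinarith [sq_nonneg (tr g K x)]
  have a7 : -(tr g K x ^ 2) * U x ≤ cut ρ x * scal g x * U x :=
    mul_le_mul_of_nonneg_right a6 (by linarith)
  unfold cl
  unfold er at a1
  nlinarith [sq_nonneg (tr g K x)]

end Vale.Agent.P366M.Y.A
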