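import Vale.Agent.P366Q.A.Fin1
import Vale.Agent.P366Y.B.Exq
import Vale.Agent.P366Z.St0.Mat

/-!
# P366Q, block A: the constants of the data (row EXK)
-/

open MeasureTheory Metric Filter Topology Set Matrix
open scoped ContDiff ENNReal
open Vale.Agent.P366 Vale.Agent.P366.Stmt Vale.Agent.P366Z

noncomputable section

namespace Vale.Agent.P366M.Y.A

open St0.ExtA P366Y.A.ExkH P366Y.B.ExqH in
/-- **EXK** -/
theorem exk : EXK := by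
  intro n M _ D m hn ⟨q₀, hq₀, hA₀⟩ hs hm hE
  have hn' : (3 : ℝ) ≤ n := by exact_mod_cast hn
  obtain ⟨q, hq, q1, q2⟩ : ∃ q : ℝ, (n : ℝ) / 2 - 1 < q ∧ q ≤ q₀ ∧ q ≤ n - 2 :=
    ⟨min q₀ (n - 2), lt_min hq₀ (by linarith), min_le_left _ _, min_le_right _ _⟩
  obtain ⟨sF, hz, hc, R, hR⟩ := D.dom
  have h0 := R0_ge M
  obtain ⟨R₀, r1, r2⟩ : ∃ R₀ : ℝ, R0 M ≤ R₀ ∧ R < R₀ :=
    ⟨max (R0 M) (R + 1), le_max_left _ _, (lt_add_one R).trans_le (le_max_right _ _)⟩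
  obtain ⟨F, hF⟩ : ∃ F : M → ℝ, ∀ x, F x = D.F x + (1 - cut R₀ x) := ⟨_, fun _ => rfl⟩
  have sF' : Smooth F := funext hF ▸ CD.add sF (CD.sub cd_const (sm_cut R₀))
  have f1 : ∀ x, D.F x ≤ F x := fun x => by
    rw [hF]
    linarith [cut_le_one R₀ x]
  have f2 : ∀ x : M, ‖px x‖ ≤ R₀ → F x = D.F x := fun x hx => by rw [hF, cut_one hx]; ring
  have f3 : ∀ x, D.F x ≤ 0 → ‖px x‖ < R₀ := fun x hx =>
    (not_lt.1 fun k => (hR x k).not_ge hx).trans_lt r2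
  have f4 : ∀ x, 0 ≤ F x → 0 ≤ D.F x := fun x hx => by
    by_contra k
    exact k (f2 x (f3 x (not_le.1 k).le).le ▸ hx)
  have f5 : ∀ x, F x = 0 → F =ᶠ[𝓝 x] D.F := fun x hx =>
    (ev_px_lt (f3 x ((f1 x).trans hx.le))).mono fun y hy => f2 y hy.le
  have f6 : ∀ x : M, 2 * R₀ ≤ ‖px x‖ → 1 ≤ F x := fun x hx => by
    rw [hF, cut_zero (by linarith) hx]
    linarith [hR x (show R < ‖px x‖ by linarith)]
  obtain ⟨C₁, R₁, a1⟩ := unif fun t : Fin n × Fin n => bigO_mono (hA₀ t.1 t.2 t.1 t.1).1 q1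
  obtain ⟨C₂, R₂, a2⟩ := unif fun t : Fin n × Fin n × Fin n =>
    bigO_mono (p' := q + 1) (hA₀ t.1 t.2.1 t.2.2 t.1).2.1 (by linarith)
  obtain ⟨C₃, R₃, a3⟩ := unif fun t : Fin n × Fin n × Fin n × Fin n =>
    bigO_mono (p' := q + 2) (hA₀ t.1 t.2.1 t.2.2.1 t.2.2.2).2.2.1 (by linarith)
  obtain ⟨C₄, R₄, a4⟩ := unif fun t : Fin n × Fin n =>
    bigO_mono (p' := q + 1) (hA₀ t.1 t.2 t.1 t.1).2.2.2.1 (by linarith)
  obtain ⟨C₆, R₆, a6⟩ := unif fun t : Fin n × Fin n × Fin n =>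
    bigO_mono (p' := q + 2) (hA₀ t.1 t.2.1 t.2.2 t.1).2.2.2.2 (by linarith)
  obtain ⟨C, c0, c1, c2, c3, c4, c6⟩ :
      ∃ C : ℝ, 1 ≤ C ∧ C₁ ≤ C ∧ C₂ ≤ C ∧ C₃ ≤ C ∧ C₄ ≤ C ∧ C₆ ≤ C :=
    ⟨max (max 1 C₁) (max (max C₂ C₃) (max C₄ C₆)), by simp, by simp, by simp, by simp, by simp,
      by simp⟩
  obtain ⟨e, e0, he⟩ := up_bd St0.mat0 n
  have q0 : 0 < q := by linarith
  obtain ⟨R₅, a5⟩ := eventually_atTop.1 ((tendsto_rpow_neg_atTop q0).eventually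
    (ge_mem_nhds (show 0 < e / C by positivity)))
  obtain ⟨P, p0, p1, p2, p3, p4, p5, p6⟩ :
      ∃ P : ℝ, 2 * R₀ ≤ P ∧ R₁ ≤ P ∧ R₂ ≤ P ∧ R₃ ≤ P ∧ R₄ ≤ P ∧ R₅ ≤ P ∧ R₆ ≤ P :=
    ⟨max (max (2 * R₀) R₁) (max (max R₂ R₃) (max R₄ (max R₅ R₆))), by simp, by simp, by simp,
      by simp, by simp, by simp, by simp⟩
  have c5 : C ≤ 2 * n ^ 2 * C := le_mul_of_one_le_left (by linarith) (by nlinarith)
  refine ⟨F, q, 2 * n ^ 2 * C, P, ⟨⟨hn, D.met, hq, by linarith, by linarith, fun x hx i j k l =>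
    ⟨a1 _ (c1.trans c5) (i, j) x (p1.trans hx), a2 _ (c2.trans c5) (i, j, k) x (p2.trans hx),
      a3 _ (c3.trans c5) (i, j, k, l) x (p3.trans hx)⟩, hE⟩,
    ⟨sF', fun x hx => ?_, ?_, R, fun x hx => (hR x hx).trans_le (f1 x)⟩,
    fun x hx => f6 x (p0.trans hx), ?_, ⟨D.smK, D.syK⟩, fun x hx => ?_,
    fun x hx => hs x (f4 x hx), fun x hx => ?_⟩,
    fun x hx i j k => ⟨a4 _ (c4.trans c5) (i, j) x (p4.trans hx),
      a6 _ (c6.trans c5) (i, j, k) x (p6.trans hx)⟩, q2,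
    fun x => ⟨f4 x, fun hx => hx.trans (f1 x)⟩, fun x hx => f2 x (f3 x hx).le ▸ hx,
    D.bdry.imp fun x hx => (f2 x (f3 x hx.le).le).trans hx⟩
  · simp only [pd_congr (f5 x hx)]
    exact hz x ((f5 x hx).eq_of_nhds.symm.trans hx)
  · rwa [show {x | 0 ≤ F x} = {x | 0 ≤ D.F x} from
      Set.ext fun x => ⟨f4 x, fun hx => le_trans hx (f1 x)⟩]
  · obtain ⟨x, hx⟩ := D.bdry
    by_contra k
    push Not at k
    refine fd_ne (sF.lc (ch_mem x)) (hz x hx) (IsLocalMin.fderiv_eq_zero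
      (isLocalMin_loc (Eventually.of_forall fun y => ?_)))
    rw [hx]
    exact f4 y (k y)
  · have k : R0 M + 1 / 2 ≤ ‖px x‖ := by linarith
    rw [mul_assoc _ C, (tw_xg D.g).normSq (tw_fe D.K) k, (tw_xg D.g).tr (tw_fe D.K) k]
    refine dk_bd (by positivity) (he _ _ (met_xg D.met) fun i j => ?_) fun i j =>
      a4 C c4 (i, j) _ (p4.trans hx)
    rw [tw_xg D.g _ k]
    refine (a1 C c1 (i, j) _ (p1.trans hx)).trans ?_
    rw [← le_div_iff₀' (by linarith)]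
    exact a5 _ (p5.trans hx)
  · rw [Fin1.th_congr (f5 x hx)]
    exact hm x ((f5 x hx).eq_of_nhds.symm.trans hx)

end Vale.Agent.P366M.Y.A
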