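import Vale.Agent.P366Q.A.Defs
import Vale.Agent.P366Y.A.Cf1
import Vale.Agent.P366Y.A.Cf2

/-!
# P366Q, block A: conformal laws (rows CF1, CF2, CF3)
-/

open Vale.Agent.P366 Vale.Agent.P366.Stmt Vale.Agent.P366Z

noncomputable section

namespace Vale.Agent.P366M.Y.A

variable {n : ℕ} {M : Type} [Mf0 n M] {K : Fld n M} {e : Ch n M}

theorem rep_ck (e : Ch n M) (U : M → ℝ) (K : Fld n M) :
    rep e (ck U K) = P366Y.A.ck (loc e U) (rep e K) := rep_smul e (fun x => U x ^ bb n) K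

theorem Sy.rep (hK : Sy K) (he : e ∈ At M) : P366Y.A.Sy (rep e K) := ⟨hK.sm e he, rep_sy hK.sy e⟩

theorem Sy.loc' (hK : Sy K) (x : M) : P366Y.A.Sy (P366M.rep (ch x) K) := hK.rep (ch_mem x)

/-- row CF1 -/
theorem cf1 : CF1 := by
  intro n M _ g K U hn hg hK hU h0
  refine ⟨hg.cf hU h0, ⟨SmT.smul (hU.rpow h0 _) hK.sm, fun x i j => by rw [ck, ck, hK.sy]⟩,
    fun x => ?_⟩
  obtain ⟨a, b, -, c, d⟩ := (P366Y.A.cf1 n _ _ _ hn (hg.loc' x) (hK.loc' x) (hU.lc (ch_mem x))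
    fun _ => h0 _).2.2 (pt x)
  simp only [← rep_cf, ← rep_ck, tr_pt, normSq_pt, mu_pt, cl_pt, loc_pt] at a b c d
  exact ⟨a, b, hg.gn_cf (h0 x), c, d⟩

/-- row CF2 -/
theorem cf2 : CF2 := by
  intro n M _ g K U hn hg hK hU h0 x
  have := P366Y.A.cf2 n _ _ _ hn (hg.loc' x) (hK.loc' x) (hU.lc (ch_mem x)) (fun _ => h0 _) (pt x)
  simpa only [← rep_cf, ← rep_ck, covNorm_mom_pt, normSq_pt, gn_pt, loc_pt] using this

/-- row CF3 -/
theorem cf3 : CF3 := by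
  intro n M _ g K U F x hn hg hK hU h0 hF h
  have := P366Y.A.cf3 n _ _ _ _ (pt x) hn (hg.loc' x) (hK.loc' x) (hU.lc (ch_mem x))
    (fun _ => h0 _) (hF.lc (ch_mem x)) (by rwa [gn_pt])
  simpa only [← rep_cf, ← rep_ck, thetaPlus_pt, ip_pt, gn_pt, loc_pt] using this

end Vale.Agent.P366M.Y.A
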