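import Vale.Agent.P366Q.A.Fin1
import Vale.Agent.P366Q.A.Cf
import Vale.Agent.P366Y.A.Inn

/-!
# P366Q, block A: the tensor inside the boundary (row INN)
-/

open Metric Filter Topology Set
open scoped ContDiff
open Vale.Agent.P366 Vale.Agent.P366.Stmt Vale.Agent.P366Z

noncomputable section

namespace Vale.Agent.P366M.Y.A

namespace InnX

variable {n : ℕ} {M : Type} [Mf0 n M] {g K K' : Fld n M} {F : M → ℝ} {C : Set M} {x : M}

theorem dom (hC : IsCompact C) (hg : Met g) (hK : Sy K) : ∃ B ≥ (0 : ℝ), ∀ x ∈ C, ∀ ξ : Fin n → ℝ,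
    ∑ i, ∑ j, K x i j * ξ i * ξ j ≤ B * ∑ i, ∑ j, g x i j * ξ i * ξ j := by
  refine hC.induction_on (p := fun s => ∃ B ≥ (0 : ℝ), ∀ x ∈ s, ∀ ξ : Fin n → ℝ,
    ∑ i, ∑ j, K x i j * ξ i * ξ j ≤ B * ∑ i, ∑ j, g x i j * ξ i * ξ j) ⟨0, le_rfl, by simp⟩
    (fun s t hst ⟨B, B0, hB⟩ => ⟨B, B0, fun x hx => hB x (hst hx)⟩) ?_ fun x _ => ?_
  · rintro s t ⟨B, B0, hB⟩ ⟨D, -, hD⟩
    refine ⟨max B D, le_max_of_le_left B0, fun x hx ξ => hx.elim (fun hx => ?_) fun hx => ?_⟩
    · exact (hB x hx ξ).trans (mul_le_mul_of_nonneg_right (le_max_left _ _) (hg.g_nonneg x ξ))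
    · exact (hD x hx ξ).trans (mul_le_mul_of_nonneg_right (le_max_right _ _) (hg.g_nonneg x ξ))
  · obtain ⟨B, B0, hB⟩ := P366Y.A.InnX.dom (isCompact_closedBall (pt x) 1) (hg.loc' x) (hK.loc' x)
    refine ⟨_, mem_nhdsWithin_of_mem_nhds (image_nhds x (closedBall_mem_nhds (pt x) one_pos)),
      B, B0, ?_⟩
    rintro _ ⟨y, hy, rfl⟩ ξ
    have := hB y hy fun i => repV (ch x) (fun i _ => ξ i) i y
    rwa [quad_rep (ch_mem x), quad_rep (ch_mem x)] at this

omit [Mf0 n M] in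
theorem quad {c : ℝ} (h : ∀ i j, K' x i j = K x i j - c * g x i j) (ξ : Fin n → ℝ) :
    ∑ i, ∑ j, K' x i j * ξ i * ξ j =
      ∑ i, ∑ j, K x i j * ξ i * ξ j - c * ∑ i, ∑ j, g x i j * ξ i * ξ j := by
  simp only [h, Finset.mul_sum, ← Finset.sum_sub_distrib]
  exact Finset.sum_congr rfl fun i _ => Finset.sum_congr rfl fun j _ => by ring

theorem theta (hg : Met g) (h0 : gn g F x ≠ 0) {c : ℝ}
    (h : ∀ i j, K' x i j = K x i j - c * g x i j) :
    thetaPlus g K' F x = thetaPlus g K F x - c * (n - 1) := by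
  rw [← thetaPlus_pt, ← thetaPlus_pt]
  exact P366Y.A.InnX.theta (hg.loc' x) (by rwa [gn_pt]) (by simpa only [rep_pt] using h)

end InnX

open InnX

theorem inn : INN := by
  intro n M _ g K F s h hn hg hK hF ⟨R, hR⟩ hs hθ
  have cpt : ∀ C : Set M, IsClosed C → (∀ x ∈ C, F x < 1) → IsCompact C := fun C h1 h2 =>
    cpt_of (R := R) h1 fun x hx => (not_le.1 fun k => (h2 x hx).not_ge (hR x k)).le
  obtain ⟨A, A0, hA⟩ := dom (cpt {x | F x ≤ 0} (isClosed_le hF.cont continuous_const)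
    fun x hx => lt_of_le_of_lt hx one_pos) hg hK
  have ip0 : ∀ x ∈ F ⁻¹' Icc (-(s / 8)) (-(s / 16)), 0 < ip g F F x := fun x hx =>
    hg.gn_sq F x ▸ sq_pos_of_ne_zero (hθ x (abs_le.2 ⟨by linarith [hx.1], by linarith [hx.2]⟩)).1
  obtain ⟨B, hB⟩ := (cpt _ (isClosed_Icc.preimage hF.cont) fun x hx => by
      linarith [hx.2]).exists_bound_of_continuousOn
    (f := fun x => 16 * n * normSq g (hess g F) x / ip g F F x)
    ((continuous_const.mul (hg.sm_normSq (hg.sm_hess hF)).cont).continuousOn.div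
      (hg.sm_ip hF hF).cont.continuousOn fun x hx => (ip0 x hx).ne')
  have B0 := abs_nonneg B
  have sχ : Smooth fun x => Real.smoothTransition (-32 * F x / s - 1) :=
    Real.smoothTransition.contDiff.compM (((CD.mul cd_const hF).div_const s).sub cd_const)
  refine ⟨fun x i j => K x i j - (A + (|B| + 1)) * Real.smoothTransition (-32 * F x / s - 1) *
    g x i j, |B| + 1, ⟨hK.sm.sub (SmT.smul (CD.mul cd_const sχ) hg.sm),
      fun x i j => by rw [hK.sy x i j, hg.sy x i j]⟩, by linarith, fun x hx => ?_, fun x hx => ?_,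
    fun x hx ξ => ?_, fun x h1 h2 => ?_⟩
  · filter_upwards [hF.cont.continuousAt.eventually (lt_mem_nhds (show -(s / 32) < F x by linarith))]
      with y hy
    funext i j
    rw [Real.smoothTransition.zero_of_nonpos (sub_nonpos.2 ((div_le_one hs).2 (by linarith))),
      mul_zero, zero_mul, sub_zero]
  · rw [theta hg (hθ x hx).1 fun _ _ => rfl]
    exact (sub_le_self _ (mul_nonneg (mul_nonneg (by positivity) (Real.smoothTransition.nonneg _))
      (by linarith [nm2_pos hn]))).trans (hθ x hx).2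
  · refine (quad (K := K) (g := g) (x := x) (K' := fun x i j => K x i j - (A + (|B| + 1)) *
      Real.smoothTransition (-32 * F x / s - 1) * g x i j) (fun _ _ => rfl) ξ).trans_le ?_
    rw [Real.smoothTransition.one_of_one_le
      (le_sub_iff_add_le.2 ((le_div_iff₀ hs).2 (by linarith)))]
    linarith [hA x (show F x ≤ 0 by linarith) ξ]
  · exact (div_le_iff₀ (ip0 x ⟨h1, h2⟩)).1 (((le_abs_self _).trans (hB x ⟨h1, h2⟩)).trans
      ((le_abs_self B).trans (by nlinarith)))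

end Vale.Agent.P366M.Y.A
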