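import Vale.Agent.P366Q.A.Fin1

/-!
# P366Q, block A, row PRE: the conformal factor
-/

open MeasureTheory Metric Filter Topology Set
open scoped ContDiff ENNReal
open Vale.Agent.P366 Vale.Agent.P366.Stmt Vale.Agent.P366Z

noncomputable section

namespace Vale.Agent.P366M.Y.A

open Asm

theorem PreH.bound {n : ℕ} {M : Type} [Mfe n M] {g K : Fld n M} {F : M → ℝ} (hg : Met g)
    (hK : Sy K) (hF : Smooth F) (r : ℝ) : ∃ B > (0 : ℝ), ∀ x : M, ‖px x‖ ≤ r →
      √(normSq g K x) ≤ B ∧ gn g F x ≤ B := by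
  obtain ⟨B, hB⟩ := (isCompact_px M r).exists_bound_of_continuousOn
    ((cont_k hg hK).add (hg.cont_gn hF.one)).continuousOn
  refine ⟨|B| + 1, by positivity, fun x hx => ?_⟩
  have h1 : √(normSq g K x) + gn g F x ≤ |B| :=
    ((le_abs_self _).trans (hB x hx)).trans (le_abs_self B)
  have h3 := Real.sqrt_nonneg (normSq g K x)
  have h4 := gn_nonneg g F x
  exact ⟨by linarith, by linarith⟩

theorem pre_of (hW : WK) (hP : PPK) (hU : USK) (hE : FEK) (hM : CUTM) : PRE := by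
  intro n M _ g K F q C R m hB η hη A hA0 r₀
  have hn : (3 : ℝ) ≤ n := by exact_mod_cast hB.dim
  have hq := hB.q0
  have R1 : 1 ≤ R := by linarith [hB.R1, R0_ge M]
  obtain ⟨q', q1, q2, q3⟩ : ∃ q' > (0 : ℝ), q' < q ∧ n + q' < 2 + 2 * q :=
    ⟨min (q / 2) ((2 * q + 2 - n) / 2), lt_min (by linarith) (by linarith),
      (min_le_left _ _).trans_lt (by linarith),
      by linarith [min_le_right (q / 2) ((2 * q + 2 - n) / 2)]⟩
  obtain ⟨L, L0, c, c0, ρW, hw⟩ := hW n M g K F q C R m q' hB q1 q2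
  obtain ⟨d, d0, d1⟩ : ∃ d > (0 : ℝ), d * L = η / 8 :=
    ⟨η / 8 / L, by positivity, div_mul_cancel₀ _ L0.ne'⟩
  obtain ⟨r, r1, p0, p, hp, p1, p2⟩ := hP n M g K F q C R m q' hB q1 q3 A hA0 (d * c / 16)
    (by positivity) (max r₀ R)
  have r2 : R ≤ r := (le_max_right _ _).trans r1
  have r3 : 1 ≤ r := R1.trans r2
  obtain ⟨B, B0, hB'⟩ := PreH.bound hB.met hB.sy hB.ext.1 (2 * r)
  obtain ⟨C', -, hc⟩ := hM n q C hB.C0
  obtain ⟨KE, -, ρE, hf⟩ := hE n M g q C R m hB.toB0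
  have m0 : ∀ x : M, 0 < mg q' x := fun x => WkH.mg_pos
  obtain ⟨μ, μ0, μ1, μ2⟩ : ∃ μ > (0 : ℝ), μ ≤ 1 ∧ ∀ x : M, ‖px x‖ ≤ 2 * r → μ ≤ mg q' x :=
    ⟨(1 + 2 * r) ^ (-(n + q')), Real.rpow_pos_of_pos (by positivity) _,
      Real.rpow_le_one_of_one_le_of_nonpos (by linarith) (by linarith), fun x hx =>
        Real.rpow_le_rpow_of_nonpos (by positivity) (by linarith) (by linarith)⟩
  obtain ⟨e, e0, e1, e2⟩ : ∃ e > (0 : ℝ), 2 * r * e ≤ η / 2 ∧ (B + 1) * e ≤ d * c * μ / 4 := by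
    refine ⟨min (η / 2 / (2 * r)) (d * c * μ / 4 / (B + 1)), by positivity, ?_, ?_⟩
    · rw [mul_comm]
      exact (le_div_iff₀ (by positivity)).1 (min_le_left _ _)
    · rw [mul_comm]
      exact (le_div_iff₀ (by positivity)).1 (min_le_right _ _)
  have e3 : e ≤ η / 4 := by nlinarith
  obtain ⟨ρU, hu⟩ := hU n M g q C R m hB.toB0 (2 * r) e e0
  refine ⟨r, (le_max_left _ _).trans r1, p0, p, hp, max (2 * r + 1) (max ρE (max ρW ρU)),
    fun ρ hρ => ?_⟩
  obtain ⟨s1, s2⟩ := max_le_iff.1 hρ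
  obtain ⟨s2, s3⟩ := max_le_iff.1 s2
  obtain ⟨s3, s4⟩ := max_le_iff.1 s3
  obtain ⟨w, βw, w1, w2, w3, w4, w5, w6, w7, w8, w9, w10⟩ := hw ρ s3
  obtain ⟨u, βu, u1, u2, u3, u4, u5, u6⟩ := hu ρ s4
  obtain ⟨g1, -⟩ := hc M g R ρ hB.met hB.af hB.R1 (by linarith)
  have hγ := one_lt_gam hB.dim
  have dc : 0 < d * c := mul_pos d0 c0
  have lu : ∀ x, 2 * ρ ≤ ‖px x‖ → lap (gc g ρ) u x = 0 := fun x hx => by
    have h := u4 x (by linarith)
    rw [(hf ρ s2 x).1 (.inr hx), zero_mul] at h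
    exact (mul_eq_zero.1 h).resolve_left (by positivity)
  refine ⟨fun x => 1 * u x + d * w x, 1 * βu + d * βw, sm_lin u1 w1 _ _, fun x => ?_,
    fun x hx hx' => ?_, fun x hx hx' => ?_, fun x hx hx' => ?_, fun x hx => ?_, fun x hx => ?_,
    fun x hx => ?_, ?_, ?_⟩
  · have h1 := abs_le.1 (u2 x)
    have h2 : |d * w x| ≤ d * L := by
      rw [abs_mul, abs_of_pos d0]; exact mul_le_mul_of_nonneg_left (w2 x) d0.le
    have h3 := abs_le.1 h2
    exact abs_le.2 ⟨by linarith [h1.1, h3.1], by linarith [h1.2, h3.2]⟩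
  · have h1 := mul_le_mul_of_nonneg_left (fd_lin u1 w1 d0.le x) (norm_nonneg (px x))
    have h2 := mul_le_mul hx' ((u3 x hx').2.2 (r2.trans hx)) (norm_nonneg _) (by linarith)
    have h3 := mul_le_mul_of_nonneg_left (w3 x (r2.trans hx)) d0.le
    linarith
  · have h1 := (abs_le.1 (u3 x hx').2.1).2
    have h2 := mul_le_mul_of_nonneg_left (gn_lin hB.met u1 w1 d0.le x)
      (Real.sqrt_nonneg (normSq g K x))
    have h3 := mul_le_mul (hB' x hx').1 (u3 x hx').1 (gn_nonneg _ _ _) B0.le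
    have h4 := mul_le_mul_of_nonneg_left (w4 x hx (by linarith)) d0.le
    have h5 := p1 x hx'
    have h6 := mul_le_mul_of_nonneg_left (μ2 x hx') dc.le
    have h7 := mul_pos dc (m0 x)
    rw [hB.met.lap_lin (u1.c2 x) (w1.c2 x)]
    linarith
  · have h1 := mul_le_mul_of_nonneg_left (w5 x (r2.trans hx) hx') d0.le
    have h2 := p2 x hx
    have h3 := u4 x (r2.trans hx)
    have h7 := mul_pos dc (m0 x)
    rw [g1.lap_lin (u1.c2 x) (w1.c2 x)]
    linarith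
  · rw [g1.lap_lin (u1.c2 x) (w1.c2 x), lu x hx]
    linarith [mul_nonneg d0.le (neg_nonneg.2 (w6 x hx))]
  · rw [g1.lap_lin (u1.c2 x) (w1.c2 x), lu x (by linarith), w7 x hx]
    ring
  · have hx' : ‖px x‖ ≤ 2 * r := by
      by_contra h
      linarith [hB.far x (by linarith)]
    have h1 := (le_abs_self _).trans (hB.met.abs_ip_le u F x)
    have h2 := mul_le_mul (u3 x hx').1 (hB' x hx').2 (gn_nonneg _ _ _) e0.le
    have h3 := mul_le_mul_of_nonneg_left (w8 x hx) d0.le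
    have h4 := mul_le_mul_of_nonneg_left μ1 dc.le
    rw [ip_lin u1 w1]
    linarith
  · simpa only [mul_zero, add_zero, mul_one] using asy_lin u5 w9 u1 w1 1 d
  · have := mul_le_mul_of_nonneg_left w10 d0.le
    linarith

end Vale.Agent.P366M.Y.A
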