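import Vale.Agent.P366Q.A.Hop

/-!
# P366Q, block A: a strict supersolution with a drift
-/

open MeasureTheory Metric Filter Topology Set
open scoped ContDiff ENNReal
open Vale.Agent.P366 Vale.Agent.P366.Stmt Vale.Agent.P366Z

noncomputable section

namespace Vale.Agent.P366M.Y.A

namespace ThkH

variable {n : ℕ} {M : Type} [Mfe n M] {g : Fld n M} {F Z z : M → ℝ} {k t R : ℝ} {s : Set M}

theorem op_add (hg : Met g) (hk : 0 ≤ k) (ht : 0 ≤ t) (hZ : Smooth Z) (hz : Smooth z) (x : M) :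
    op g k Z x + t * op g k z x ≤ op g k (fun y => 1 * Z y + t * z y) x := by
  have h2 := mul_le_mul_of_nonneg_left (Asm.gn_lin hg hZ hz ht x) hk
  unfold op
  rw [hg.lap_lin (hZ.c2 x) (hz.c2 x)]
  linarith

theorem op_cont (hg : Met g) (hz : Smooth z) : Continuous (op g k z) :=
  (hg.sm_lap hz).cont.sub (continuous_const.mul (hg.cont_gn hz.one))

/-- the domain -/
def Om (F : M → ℝ) (R : ℝ) : Set M := {x | ‖px x‖ ≤ R} ∩ {x | 0 ≤ F x}

theorem om_cp (hF : Continuous F) (R : ℝ) : IsCompact (Om F R) :=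
  (isCompact_px M R).inter_right (isClosed_le continuous_const hF)

/-- a subsolution that vanishes near the boundary and is strict on `s` -/
def Gd (g : Fld n M) (k : ℝ) (F : M → ℝ) (R : ℝ) (s : Set M) : Prop :=
  ∃ Z, Smooth Z ∧ (∀ x, F x = 0 → Z =ᶠ[𝓝 x] fun _ => 0) ∧ (∀ x ∈ Om F R, 0 ≤ op g k Z x) ∧
    ∀ x ∈ s, x ∈ Om F R → 0 < op g k Z x

theorem gd_out (hs : ∀ x ∈ s, x ∉ Om F R) : Gd g k F R s :=
  ⟨fun _ => 0, cd_const, fun _ _ => EventuallyEq.rfl, fun _ _ => (op_ev EventuallyEq.rfl).ge,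
    fun x hx h => (hs x hx h).elim⟩

theorem Gd.mono {s' : Set M} (h : Gd g k F R s) (e : s' ⊆ s) : Gd g k F R s' :=
  h.imp fun _ h => ⟨h.1, h.2.1, h.2.2.1, fun x hx => h.2.2.2 x (e hx)⟩

theorem Gd.union {s' : Set M} (hg : Met g) (hk : 0 ≤ k) (h : Gd g k F R s)
    (h' : Gd g k F R s') : Gd g k F R (s ∪ s') := by
  obtain ⟨Z, a1, a2, a3, a4⟩ := h
  obtain ⟨z, b1, b2, b3, b4⟩ := h'
  have e := op_add hg hk zero_le_one a1 b1
  refine ⟨_, Asm.sm_lin a1 b1 1 1, fun x hx => ?_, fun x hx => ?_, fun x hx hx' => ?_⟩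
  · filter_upwards [a2 x hx, b2 x hx] with y h1 h2
    rw [h1, h2, mul_zero, add_zero]
  · linarith [e x, a3 x hx, b3 x hx]
  · rcases hx with hx | hx
    · linarith [e x, a4 x hx hx', b3 x hx']
    · linarith [e x, a3 x hx', b4 x hx hx']

theorem step (hg : Met g) (hk : 0 ≤ k) (hF : Continuous F) {x : M} (hx : 0 < F x)
    (hc : x ∈ closure {y | ∃ s ∈ 𝓝 y, Gd g k F R s}) : ∃ s ∈ 𝓝 x, Gd g k F R s := by
  have he := ch_mem x
  obtain ⟨r, r0, hr⟩ := Metric.eventually_nhds_iff_ball.1 (ev_pt.1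
    ((isOpen_lt continuous_const hF).mem_nhds (show x ∈ {y | 0 < F y} from hx)))
  obtain ⟨_, ⟨y, hy, rfl⟩, s, hs, Z, a1, a2, a3, a4⟩ := mem_closure_iff_nhds.1 hc _
    (image_nhds x (ball_mem_nhds (pt x) (show 0 < r / 3 by positivity)))
  rw [mem_ball, dist_comm] at hy
  rcases eq_or_ne (pt x) y with rfl | e
  · exact ⟨s, by rwa [symm_pt] at hs, Z, a1, a2, a3, a4⟩
  obtain ⟨σ, σ0, hσ⟩ := nhds_basis_closedBall.mem_iff.1 (tendsto_symm he y hs)
  have d0 : 0 < dist (pt x) y := dist_pos.2 e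
  obtain ⟨τ, τ0, τ1, τ2⟩ : ∃ τ, 0 < τ ∧ τ ≤ σ ∧ τ < dist (pt x) y :=
    ⟨min σ (dist (pt x) y / 2), by positivity, min_le_left _ _,
      (min_le_right _ _).trans_lt (by linarith)⟩
  obtain ⟨z, b1, b2, b3, b4⟩ := hop hg he y k τ0 (τ2.trans hy)
  obtain ⟨t, t0, ht⟩ := Asm.small ((om_cp hF R).inter_right
    ((isCompact_closedBall y τ).image (cont_symm he)).isClosed)
    (op_cont (k := k) hg a1) (op_cont (k := k) hg b1) fun w hw => by
      obtain ⟨h1, v, h2, rfl⟩ := hw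
      exact a4 _ (hσ (closedBall_subset_closedBall τ1 h2)) h1
  have e := op_add hg hk t0.le a1 b1
  refine ⟨_, image_nhds x (B := {w | τ < dist w y} ∩ ball y (r / 3)) (((isOpen_lt continuous_const
    (continuous_id.dist continuous_const)).inter isOpen_ball).mem_nhds ⟨τ2, hy⟩), _,
    Asm.sm_lin a1 b1 1 t, fun w hw => ?_, fun w hw => ?_, ?_⟩
  · filter_upwards [a2 w hw, b2 w fun ⟨v, h1, h2⟩ => (hr v (mem_ball.2 (by
      linarith [dist_triangle v y (pt x), dist_comm (pt x) y, mem_closedBall.1 h1]))).ne'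
        (h2 ▸ hw)] with v h2 h3
    rw [h2, h3, mul_zero, mul_zero, add_zero]
  · by_cases h : w ∈ (ch x).symm '' closedBall y τ
    · exact (ht t t0.le le_rfl w ⟨hw, h⟩).le.trans (e w)
    · exact (add_nonneg (a3 w hw) (mul_nonneg t0.le (b3 w h))).trans (e w)
  · rintro _ ⟨w, hw, rfl⟩ hw'
    exact (add_pos_of_nonneg_of_pos (a3 _ hw') (mul_pos t0 (b4 w (dist_eq_norm w y ▸ le_of_lt hw.1)
      (dist_eq_norm w y ▸ hw.2)))).trans_le (e _)

theorem ex_far (hn : 0 < n) (M : Type) [Mfe n M] (r : ℝ) : ∃ x : M, r < ‖px x‖ := by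
  have h0 := R0_ge M
  have e : ‖(EuclideanSpace.single ⟨0, hn⟩ (|r| + R0 M) : E n)‖ = |r| + R0 M := by
    rw [PiLp.norm_single, Real.norm_of_nonneg (by positivity)]
  refine ⟨yp (EuclideanSpace.single ⟨0, hn⟩ (|r| + R0 M)), ?_⟩
  rw [px_yp (by rw [e]; linarith [abs_nonneg r]), e]
  linarith [le_abs_self r]

theorem all (hn : 3 ≤ n) (hg : Met g) (hk : 0 ≤ k) (hF : IsExt F) {x : M}
    (hx : 0 < F x) : ∃ s ∈ 𝓝 x, Gd g k F R s := by
  obtain ⟨R', hR⟩ := hF.2.2.2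
  refine (conn n M F hF).subset_of_closure_inter_subset (u := {y | ∃ s ∈ 𝓝 y, Gd g k F R s})
    (isOpen_iff_mem_nhds.2 fun y ⟨s, hs, h⟩ => ?_) ?_
    (fun y hy => step hg hk hF.1.cont hy.2 hy.1) hx
  · exact (eventually_mem_nhds_iff.2 hs).mono fun w hw => ⟨s, hw, h⟩
  · obtain ⟨y, hy⟩ := ex_far (by omega) M (max R R')
    exact ⟨y, hR _ ((le_max_right _ _).trans_lt hy), {x | R < ‖px x‖},
      ev_lt_px ((le_max_left _ _).trans_lt hy), gd_out fun w h h' => (show R < ‖px w‖ from h).not_ge h'.1⟩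

theorem op_exp (hg : Met g) (hF : Smooth F) (ht : 0 < t) (x : M) :
    op g k (fun y => Real.exp (t⁻¹ * F y)) x =
      t⁻¹ ^ 2 * Real.exp (t⁻¹ * F x) * (ip g F F x + t * op g k F x) := by
  have h1 : Smooth fun y => t⁻¹ * F y := CD.mul cd_const hF
  unfold op
  rw [hg.lap_comp (h1.c2 x) Real.contDiff_exp.contDiffAt, gn_comp (Real.hasDerivAt_exp _)
    (h1.diff x), Real.deriv_exp, Real.deriv_exp, lap_const_mul, gn_of_pd (pd_const_mul _),
    ip_of_pd (pd_const_mul _) (pd_const_mul _), abs_of_pos (Real.exp_pos _),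
    abs_of_pos (inv_pos.2 ht)]
  field_simp
  ring

end ThkH

open ThkH in
/-- **THK** -/
theorem thk : THK := by
  intro n M _ g F R k hn hg hF hk
  have sF := hF.1
  have i0 : ∀ x, F x = 0 → 0 < ip g F F x := fun x hx => Asm.ip_pos hg (hF.2.1 x hx)
  have cp := om_cp sF.cont R
  obtain ⟨l, l0, hl⟩ := Asm.small (cp.inter_right (isClosed_eq sF.cont continuous_const))
    (hg.sm_ip sF sF).cont (op_cont (k := k) hg sF) fun x hx => i0 x hx.2
  have cK := cp.inter_right (isClosed_le (((hg.sm_ip sF sF).cont.fun_add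
    (continuous_const.fun_mul (op_cont (k := k) hg sF) (f := fun _ => l)))) (g := fun _ => 0)
    continuous_const)
  obtain ⟨Z, a1, a2, a3, a4⟩ := cK.induction_on (p := Gd g k F R) (gd_out fun _ h => h.elim)
    (fun _ _ e h => h.mono e) (fun _ _ h h' => h.union hg hk h') fun x hx =>
      (all hn hg hk hF (lt_of_le_of_ne hx.1.2 fun e => (hl l l0.le le_rfl x
        ⟨hx.1, e.symm⟩).not_ge hx.2)).imp fun s h => ⟨mem_nhdsWithin_of_mem_nhds h.1, h.2⟩
  have s1 : Smooth fun y => l⁻¹ * F y := CD.mul cd_const sF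
  have b1 : Smooth fun y => Real.exp (l⁻¹ * F y) := CD.exp s1
  obtain ⟨t, t0, ht⟩ := Asm.small cK (op_cont (k := k) hg a1) (op_cont (k := k) hg b1)
    fun x hx => a4 x hx hx.1
  refine ⟨fun y => -(1 * Z y + t * Real.exp (l⁻¹ * F y)), CD.neg (Asm.sm_lin a1 b1 1 t),
    fun x h1 h2 => ?_, fun x hx => ?_⟩
  · have hx : x ∈ Om F R := ⟨h2, h1⟩
    have h3 : 0 < op g k (fun y => 1 * Z y + t * Real.exp (l⁻¹ * F y)) x := by
      refine lt_of_lt_of_le ?_ (op_add hg hk t0.le a1 b1 x)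
      by_cases h : ip g F F x + l * op g k F x ≤ 0
      · exact ht t t0.le le_rfl x ⟨hx, h⟩
      · refine add_pos_of_nonneg_of_pos (a3 x hx) (mul_pos t0 ?_)
        rw [op_exp hg sF l0]
        exact mul_pos (by positivity) (not_le.1 h)
    rw [lap_neg, gn_of_pd (s := -1) fun i => (pd_neg i).trans (neg_eq_neg_one_mul _), abs_neg,
      abs_one, one_mul]
    unfold op at h3
    linarith
  · rw [ip_of_pd (s := -1) (t := 1) (fun i => (pd_neg i).trans (neg_eq_neg_one_mul _))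
      (fun i => (one_mul _).symm), Asm.ip_lin a1 b1, ip_congr (a2 x hx) EventuallyEq.rfl,
      ip_const_left, ip_comp_left (Real.hasDerivAt_exp _) (s1.diff x),
      ip_of_pd (t := 1) (pd_const_mul _) fun i => (one_mul _).symm]
    have := i0 x hx
    have : 0 < t * (Real.exp (l⁻¹ * F x) * (l⁻¹ * 1 * ip g F F x)) := by positivity
    linarith

end Vale.Agent.P366M.Y.A
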