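import Vale.Agent.P366Q.A.Usk
import Vale.Agent.P366Q.A.Thk
import Vale.Agent.P366Y.A.Bak

/-!
# P366Q, block A, row WK: the strict supersolution on the exterior domain
-/

open MeasureTheory Metric Filter Topology Set
open scoped ContDiff ENNReal
open Vale.Agent.P366 Vale.Agent.P366.Stmt Vale.Agent.P366Z

noncomputable section

namespace Vale.Agent.P366M.Y.A

namespace WkH

variable {n : ℕ} {M : Type} [Mfe n M] {g K : Fld n M} {u v : M → ℝ} {x : M}

/-- the operator with the drift -/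
def nn (g K : Fld n M) (u : M → ℝ) (x : M) : ℝ := lap g u x + √(normSq g K x) * gn g u x

theorem cont_nn (hg : Met g) (hK : Sy K) (hu : Smooth u) : Continuous (nn g K u) :=
  (hg.sm_lap hu).cont.add ((Asm.cont_k hg hK).mul (hg.cont_gn hu.one))

theorem nn_congr (e : u =ᶠ[𝓝 x] v) : nn g K u x = nn g K v x := by
  rw [nn, nn, lap_congr e, gn_congr e]

theorem nn_const {c : ℝ} (e : u =ᶠ[𝓝 x] fun _ => c) : nn g K u x = 0 := by
  rw [nn_congr e, nn, lap_const, gn_zero fun i => pd_const c i x, mul_zero, add_zero]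

theorem nn_add (hg : Met g) (hu : Smooth u) (hv : Smooth v) {A : ℝ} (hA : 0 ≤ A) :
    nn g K (fun y => 1 * u y + A * v y) x ≤ nn g K u x + A * nn g K v x := by
  have h2 := mul_le_mul_of_nonneg_left (Asm.gn_lin hg hu hv hA x)
    (Real.sqrt_nonneg (normSq g K x))
  rw [nn, nn, nn, hg.lap_lin (hu.c2 x) (hv.c2 x)]
  linarith

theorem bdd (hu : Smooth u) {r : ℝ} (e : ∀ x, r ≤ ‖px x‖ → u x = 0) :
    ∃ B > (0 : ℝ), ∀ x, |u x| ≤ B ∧ (R0 M + 1 / 2 < ‖px x‖ → ‖fd u x‖ ≤ B) := by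
  obtain ⟨B, B0, hB⟩ := bdd_of_const (sm_xf 0 hu) (R := max r (R0 M + 1)) (c := 0) fun y hy => by
    have k := (le_max_right _ _).trans_lt hy
    rw [tw_xf 0 u y (by linarith)]
    exact e _ (by rw [px_yp (by linarith)]; exact (le_max_left _ _).trans hy.le)
  obtain ⟨D, hD⟩ := (isCompact_px M r).exists_bound_of_continuousOn hu.cont.continuousOn
  refine ⟨max B D, lt_max_of_lt_left B0, fun x => ⟨?_, fun hx => ?_⟩⟩
  · rcases le_total ‖px x‖ r with k | k
    · exact le_max_of_le_right (hD x k)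
    · rw [e x k, abs_zero]
      exact le_max_of_le_left B0.le
  · rw [(tw_xf 0 u).fd hx]
    exact le_max_of_le_left (hB _).2

end WkH

open WkH

theorem wk : WK := by
  intro n M _ g K F q C R m q' hS q0 qq
  have hn := hS.dim
  have hg := hS.met
  have RM := hS.R1
  have R8 := R0_ge M
  have R1 : 1 ≤ R := by linarith
  have γ1 := one_lt_gam hn
  obtain ⟨C', C0, hC⟩ := St0.cutm n q C hS.C0
  have C1 : 0 < max C C' := lt_max_of_lt_right C0
  obtain ⟨c, c0, K₀, K0, R₀, -, hB⟩ := P366Y.A.bak_of St0.mat0 St0.scl n q' (max C C') hn q0 C1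
  obtain ⟨Kf, Kf0, ρf, hFE⟩ := fek n M g q C R m hS.toB0
  obtain ⟨r, h1, h2⟩ : ∃ r, 2 * R ≤ r ∧ R₀ ≤ r := ⟨_, le_max_left _ _, le_max_right _ _⟩
  have r0 : 0 < r := by linarith
  have cB := isCompact_px M
  obtain ⟨k, hk⟩ := (cB r).exists_bound_of_continuousOn (Asm.cont_k hg hS.sy).continuousOn
  obtain ⟨θ, sθ, hθ, hθ'⟩ := thk n M g F r |k| hn hg hS.ext (abs_nonneg k)
  obtain ⟨c₁, c1, hc₁⟩ := ((cB r).inter_right (isClosed_le continuous_const hS.ext.1.cont
      (f := fun _ => 0))).exists_forall_le' (cont_nn hg hS.sy sθ).neg.continuousOn (a := 0)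
    fun x hx => by
      have k1 := hθ x hx.2 hx.1
      have k2 := mul_le_mul_of_nonneg_right
        ((le_abs_self _).trans ((hk x hx.1).trans (le_abs_self k))) (gn_nonneg g θ x)
      simp only [Pi.neg_apply, nn]
      linarith
  have hK : IsCompact {x | F x = 0} := cpt_of (R := R)
    (isClosed_eq hS.ext.1.cont continuous_const) fun x hx =>
      (not_lt.1 fun h => by linarith [hS.far x h.le, show F x = 0 from hx])
  obtain ⟨c₂, c2, hc₂⟩ := hK.exists_forall_le' (hg.sm_ip sθ hS.ext.1).cont.neg.continuousOn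
    (a := 0) fun x hx => neg_pos.2 (hθ' x hx)
  obtain ⟨z, hz⟩ : ∃ z : M → ℝ, z = fun x => cut r x * θ x := ⟨_, rfl⟩
  have sz : Smooth z := hz ▸ CD.mul (sm_cut r) sθ
  have z0 : ∀ x, 2 * r ≤ ‖px x‖ → z x = 0 := fun x hx => by simp [hz, cut_zero r0 hx]
  have z1 : ∀ x, 2 * r < ‖px x‖ → z =ᶠ[𝓝 x] fun _ => 0 := fun x hx =>
    (ev_lt_px hx).mono fun y hy => z0 y hy.le
  have z2 : ∀ x, ‖px x‖ < r → z =ᶠ[𝓝 x] θ := fun x hx =>
    (ev_px_lt hx).mono fun y hy => by simp [hz, cut_one hy.le]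
  obtain ⟨B, B0, hM⟩ := bdd sz z0
  obtain ⟨B', hM'⟩ := (cB (2 * r)).exists_bound_of_continuousOn (cont_nn hg hS.sy sz).continuousOn
  have p1 : 0 < c * r ^ q' := by positivity
  have p0 : 0 < c * r ^ q' * (2 * r) ^ (-(n + q')) := by positivity
  obtain ⟨A, A0, hA⟩ : ∃ A, 0 < A ∧ A * (c * r ^ q' * (2 * r) ^ (-(n + q'))) = |B'| + 1 :=
    ⟨_, by positivity, div_mul_cancel₀ _ p0.ne'⟩
  obtain ⟨e, e0, e1, e2, e3, e4⟩ : ∃ e, 0 < e ∧ e ≤ c₁ ∧ e ≤ c₂ ∧ e ≤ 1 ∧ e ≤ A * (c * r ^ q') :=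
    ⟨min (min c₁ c₂) (min 1 (A * (c * r ^ q'))), by positivity, by simp, by simp, by simp, by simp⟩
  obtain ⟨ρ₁, hρ₁⟩ := eventually_atTop.1 (((tendsto_rpow_atTop (sub_pos.2 qq)).const_mul_atTop
    p1).eventually_ge_atTop (Kf * K₀))
  have a1 : 0 < A * (K₀ * r ^ (2 - n : ℝ)) := by positivity
  have a2 := mul_pos A0 K0
  have a3 : 0 < 2 * r * B := by positivity
  refine ⟨B + 2 * r * B + A * (K₀ * r ^ (2 - n : ℝ)) + A * K₀, by positivity, e, e0,
    max (3 * r) (max ρf ρ₁), fun ρ hρ => ?_⟩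
  rw [ge_iff_le, max_le_iff, max_le_iff] at hρ
  obtain ⟨ρ1, ρ2, ρ3⟩ := hρ
  have hfe := hFE ρ ρ2
  have m1 := met_gc hg ρ
  have tw := (tw_xg g).gc ρ
  obtain ⟨m1', f1, af, -⟩ := hC _ R ρ hS.toB0.old.met hS.toB0.old.af (by linarith) (by linarith)
  obtain ⟨b', β, hb, b1, b2⟩ := hB _ R r ρ m1' ((tw.af (by linarith)).1
    (af_mono ((tw.af (by linarith)).2 af) R1 qq.le (le_max_right _ _) C1.le)) h1 h2 (by linarith) f1
  obtain ⟨b, hb'⟩ : ∃ b : M → ℝ, b = fun x => b' (px x) := ⟨_, rfl⟩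
  have bx : ∀ x, b x = b' (px x) := fun x => by rw [hb']
  have sb : Smooth b := hb' ▸ smooth_px hb.sm
  have bc : ∀ y, ‖y‖ < R0 M + 1 → b' y = b' 0 := fun y hy => hb.inn y (by linarith)
  have bl : ∀ x, lap (gc g ρ) b x = P366Z.lap (St0.gc (xg g) ρ) b' (px x) := hb' ▸ tw.lap_px bc
  have b3 : ∀ x, R ≤ ‖px x‖ → ‖px x‖ < ρ → nn g K b x ≤ P366Z.lap (St0.gc (xg g) ρ) b' (px x) +
      max C C' * ‖px x‖ ^ (-(q' + 1)) * P366Z.gn (St0.gc (xg g) ρ) b' (px x) := fun x k1 k2 => by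
    rw [← bl, ← tw.gn_px bc, ← hb', lap_of_ev (gc_ev k2), gn_of_eq (gc_in k2.le)]
    exact add_le_add_right (mul_le_mul_of_nonneg_right ((hS.dk x k1).1.trans
      (pw (R1.trans k1) (by linarith) (le_max_left _ _) C1.le)) (gn_nonneg _ _ _)) _
  have l1 : ∀ x, 2 * r < ‖px x‖ → lap (gc g ρ) (fun y => 1 * z y + A * b y) x =
      A * P366Z.lap (St0.gc (xg g) ρ) b' (px x) := fun x hx => by
    rw [m1.lap_lin (sz.c2 x) (sb.c2 x), lap_congr (z1 x hx), lap_const, mul_zero, zero_add, bl]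
  have tw' := (tw_xf 0 z).lin (hb' ▸ tw_px b' : Tw b b') 1 A
  have l2 : ∀ y, 3 * ρ ≤ ‖y‖ → 1 * xf 0 z y + A * b' y = A * β * ‖y‖ ^ (2 - n : ℝ) :=
    fun y hy => by
      rw [tw_xf 0 z y (by linarith), fe, z0 _ (by rw [px_yp (by linarith)]; linarith), hb.out y hy]
      ring
  have hU' := (St0.bub0 n hn).2.2.2.2.2 _ _ _ (by linarith) l2
  have main : ∀ x, 0 ≤ F x → ‖px x‖ < ρ →
      nn g K (fun y => 1 * z y + A * b y) x ≤ -(e * mg q' x) := fun x hx hx' => by
    refine (nn_add hg sz sb A0.le).trans ?_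
    have k0 : e * mg q' x ≤ e := mul_le_of_le_one_right e0.le (mg_le q0)
    rcases lt_or_ge ‖px x‖ r with h | h
    · have k1 : nn g K b x ≤ 0 := by
        rcases lt_or_ge ‖px x‖ (r / 2) with h' | h'
        · exact (nn_const ((ev_px_lt h').mono fun y hy => (bx y).trans (hb.inn _ hy.le))).le
        · exact (b3 x (by linarith) hx').trans (b2 _ (by linarith)).1
      have k2 : c₁ ≤ -nn g K θ x := hc₁ x ⟨h.le, hx⟩
      rw [nn_congr (z2 x h)]
      linarith [mul_nonpos_of_nonneg_of_nonpos A0.le k1]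
    have k1 := mul_le_mul_of_nonneg_left
      ((b3 x (by linarith) hx').trans ((b2 _ (by linarith)).2 h)) A0.le
    rcases le_or_gt ‖px x‖ (2 * r) with h' | h'
    · have k2 := (le_abs_self _).trans ((hM' x h').trans (le_abs_self _))
      have k3 := mul_le_mul_of_nonneg_left (Real.rpow_le_rpow_of_nonpos (r0.trans_le h) h'
        (z := -(n + q')) (neg_nonpos.2 (by positivity))) (mul_pos A0 p1).le
      linarith
    · have k2 := mul_le_mul e4 (mg_le' q0 (r0.trans_le h)) mg_pos.le (mul_pos A0 p1).le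
      rw [nn_const (z1 x h')]
      linarith
  refine ⟨fun y => 1 * z y + A * b y, A * β, Asm.sm_lin sz sb 1 A, fun x => ?_, fun x hx => ?_,
    main, fun x hx hx' => ?_, fun x hx => ?_, fun x hx => ?_, fun x hx => ?_, tw'.asy.2 hU'.1, ?_⟩
  · have k1 := mul_le_mul_of_nonneg_left ((hb.bd (px x)).2.trans hb.top) A0.le
    have k2 := mul_nonneg A0.le (hb.bd (px x)).1
    have k3 := abs_le.1 (hM x).1
    rw [← bx] at k1 k2
    exact abs_le.2 ⟨by linarith, by linarith⟩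
  · have k1 : ‖px x‖ * ‖fd z x‖ ≤ 2 * r * B := by
      rcases le_or_gt ‖px x‖ (2 * r) with h | h
      · exact mul_le_mul h ((hM x).2 (by linarith)) (norm_nonneg _) (by linarith)
      · simpa [fd_congr (z1 x h), fd_const] using a3.le
    have k3 := mul_le_mul_of_nonneg_left (Asm.fd_lin sz sb A0.le x) (norm_nonneg (px x))
    have k4 := mul_le_mul_of_nonneg_left (b1 (px x)) A0.le
    rw [← fd_px_core bc, ← hb'] at k4
    linarith
  · have k0 := mul_pos e0 (mg_pos (q' := q') (x := x))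
    rcases lt_or_ge ‖px x‖ ρ with h | h
    · have k1 := main x (by linarith [hS.far x hx]) h
      have k2 := mul_nonneg (Real.sqrt_nonneg (normSq g K x))
        (gn_nonneg g (fun y => 1 * z y + A * b y) x)
      rw [(hfe x).1 (Or.inl h.le), zero_mul, add_zero, lap_of_ev (gc_ev h)]
      rw [nn] at k1
      nlinarith
    have x0 : 0 < ‖px x‖ := by linarith
    have x1 := Real.rpow_pos_of_pos x0 (-(n + q'))
    have k1 := hb.str (px x) (by linarith) hx'
    have k2 : -(c * r ^ q' * ‖px x‖ ^ (-(n + q'))) ≤ er g ρ x * b' (px x) := by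
      refine neg_le_of_abs_le ?_
      rw [abs_mul, abs_of_nonneg (hb.bd _).1]
      refine (mul_le_mul ((hfe x).2 h) (hb.dec _ (by linarith)) (hb.bd _).1
        (by positivity)).trans ?_
      rw [mul_mul_mul_comm, ← Real.rpow_add x0]
      refine (mul_le_mul_of_nonneg_right (hρ₁ _ (ρ3.trans h)) (by positivity)).trans_eq ?_
      rw [mul_assoc, ← Real.rpow_add x0]
      congr 2
      ring
    have k3 := mul_le_mul e4 (mg_le' q0 x0) mg_pos.le (mul_pos A0 p1).le
    have k4 : c * r ^ q' * ‖px x‖ ^ (-(n + q')) ≤ -(4 * gam n) *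
        P366Z.lap (St0.gc (xg g) ρ) b' (px x) + er g ρ x * b' (px x) := by
      nlinarith [mul_pos p1 x1]
    have k5 := mul_le_mul_of_nonneg_left k4 A0.le
    rw [l1 x (by linarith)]
    simp only [z0 x (by linarith), bx]
    linarith
  · rw [l1 x (by linarith)]
    exact mul_nonpos_of_nonneg_of_nonpos A0.le (hb.sup _)
  · rw [tw.lap tw' (by linarith), f1.lap_eq (by linarith)]
    exact hU'.2 _ (by linarith)
  · have k1 : ‖px x‖ < R := not_le.1 fun h => by linarith [hS.far x h]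
    rw [ip_congr (u' := fun y => θ y + A * b' 0) (((z2 x (by linarith)).and
      (ev_px_lt (show ‖px x‖ < r / 2 by linarith))).mono fun y hy => by
        simp [hy.1, bx, hb.inn _ hy.2.le]) EventuallyEq.rfl,
      ip_add_left (sθ.diff x) (dAt_const _), ip_const_left, add_zero]
    exact le_neg.1 (e2.trans (hc₂ x hx))
  · have k1 := mul_le_mul_of_nonneg_left hb.βK A0.le
    linarith

end Vale.Agent.P366M.Y.A
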