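import Vale.Agent.P366Q.Sk2
import Vale.Agent.P366Q.A.Cvx
import Vale.Agent.P366Q.A.Exk
import Vale.Agent.P366Q.A.Inn
import Vale.Agent.P366Q.A.Ppk
import Vale.Agent.P366Q.A.Pre
import Vale.Agent.P366Q.A.Wk

/-!
# P366Q, block A: the assembly
-/

open MeasureTheory Metric Filter Topology Set
open scoped ContDiff ENNReal
open Vale.Agent.P366 Vale.Agent.P366.Stmt Vale.Agent.P366Z

noncomputable section

namespace Vale.Agent.P366M.Y.A

theorem pre : PRE := pre_of wk ppk usk fek cutm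

open Fin1 in
/-- the reduction to the prepared data -/
theorem red0 : RED0 := by
  intro n M _ D m hn d1 d2 d3 d4 η hη
  obtain ⟨F, q, C, R, hB, -, -, -, f1, -⟩ := exk n M D m hn d1 d2 d3 d4
  obtain ⟨g, hg⟩ : ∃ g, g = D.g := ⟨_, rfl⟩
  rw [← hg] at hB
  obtain ⟨ec, ec0, ρ₂, hcv⟩ := cvx hn hB.toB0
  obtain ⟨κ, κ0, κ1, κ2, κ3⟩ : ∃ κ > (0 : ℝ), κ ≤ 1 / 8 ∧ κ ≤ η / 8 ∧ κ ≤ ec :=
    ⟨min (min (1 / 8) (η / 8)) ec, by positivity, (min_le_left _ _).trans (min_le_left _ _),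
      (min_le_left _ _).trans (min_le_right _ _), min_le_right _ _⟩
  obtain ⟨ρ₁, hρ₁⟩ := cmp (D := D) (hg ▸ hB.toB0) κ0 κ1 κ2
  rw [← hg] at hρ₁
  obtain ⟨C', C0, hc⟩ := cutm n q C hB.C0
  have n3 : (3 : ℝ) ≤ n := by exact_mod_cast hn
  have R1 := hB.R1
  have R8 := R0_ge M
  obtain ⟨r, hr, p0, p, pp, ρ₀, hp⟩ := pre n M g D.K F q C R m hB κ κ0 (6 * n) (by positivity)
    (max R ρ₂)
  have rR : R ≤ r := (le_max_left _ _).trans hr
  have r2 : ρ₂ ≤ r := (le_max_right _ _).trans hr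
  obtain ⟨ρ, a0, a1, a2⟩ : ∃ ρ, ρ₀ ≤ ρ ∧ ρ₁ ≤ ρ ∧ 3 * r ≤ ρ :=
    ⟨max ρ₀ (max ρ₁ (3 * r)), le_max_left _ _, (le_max_left _ _).trans (le_max_right _ _),
      (le_max_right _ _).trans (le_max_right _ _)⟩
  obtain ⟨U, β, hU⟩ := hp ρ a0
  obtain ⟨g1, g2, -, g4, g5⟩ := hc M g R ρ hB.met hB.af R1 (by linarith)
  refine ⟨4 * ρ, fun δ hδ => ?_⟩
  have Ub : ∀ x, 7 / 8 ≤ U x ∧ U x ≤ 9 / 8 := fun x => by
    have := abs_le.1 (hU.bd x)
    constructor <;> linarith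
  have U0 : ∀ x, 0 < U x := fun x => by linarith [(Ub x).1]
  obtain ⟨χ, sχ, χ01, χ1, χ0⟩ := ex_chi (M := M) (a := r + 5 / 2) (b := r + 3) (by linarith)
    (by linarith)
  have s1 := sy_cu sχ hB.sy
  obtain ⟨mg', s2, cf1⟩ := cf1 n M (gc g ρ) (cu χ D.K) U hn g1 s1 hU.sm U0
  have sF : Smooth F := hB.ext.1
  have lt : ∀ x, F x < 1 → ‖px x‖ < R := fun x hx => by
    by_contra k
    linarith [hB.far x (not_lt.1 k)]
  have γ1 := one_lt_gam hn
  obtain ⟨s, s0, h, h0, hcol⟩ := cok n M _ _ F mg' s2 sF ⟨R, hB.far⟩ fun x hx => by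
    have x1 := lt x (by linarith)
    have e := g5 x (by linarith)
    have k := Asm.gn_ne g1 (hB.ext.2.1 x hx)
    refine ⟨Asm.gn_ne mg' (hB.ext.2.1 x hx), ?_⟩
    rw [cf3 n M _ _ U F x hn g1 s1 hU.sm U0 sF k, th_ev e (cu_ev (χ1 x (by linarith))).eq_of_nhds,
      ip_of_eq e.eq_of_nhds]
    refine mul_neg_of_pos_of_neg (Real.rpow_pos_of_pos (U0 x) _) ?_
    have := div_neg_of_neg_of_pos (mul_neg_of_pos_of_neg (show 0 < 2 * gam n by linarith)
      (hU.dir x hx)) (mul_pos (U0 x) (lt_of_le_of_ne (gn_nonneg _ _ _) k.symm))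
    linarith [hB.trap x hx]
  obtain ⟨s₀, t0, t1, t2⟩ : ∃ s₀ > (0 : ℝ), s₀ ≤ s ∧ s₀ ≤ 1 / 2 :=
    ⟨min s (1 / 2), by positivity, min_le_left _ _, min_le_right _ _⟩
  obtain ⟨K', k₀, s3, k1, i1, i2, i3, i4⟩ := inn n M _ _ F s₀ h hn mg' s2 sF ⟨R, hB.far⟩ t0
    fun x hx => hcol x (hx.trans t1)
  have F0 : ∀ x : M, r ≤ ‖px x‖ → 0 ≤ F x := fun x hx => by linarith [hB.far x (rR.trans hx)]
  have fl : ∀ x : M, 2 * ρ ≤ ‖px x‖ → 0 ≤ cl (gc g ρ) U x := fun x hx => by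
    unfold cl
    rw [scal_flat hn g1 g2 hx]
    nlinarith [hU.neg x hx]
  have ps : ∀ x : M, r ≤ ‖px x‖ → ‖px x‖ ≤ 2 * ρ → 0 < cl (gc g ρ) U x := fun x a b => by
    linarith [far_cl hB hU κ1 rR a b, nsq0 hB.met hB.sy x]
  obtain ⟨ϖ, β₂, v1, v2, v3, v4, v5, v6, v7, v8⟩ := vpi (r := r + 8) hn g1 g2 hU.sm
    (by linarith) (by linarith) κ0 hδ (fun x a b => ps x (by linarith) b) fl
  have nq : ∀ x : M, r ≤ ‖px x‖ → ‖px x‖ ≤ ρ → normSq (cf U (gc g ρ)) K' x ≤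
      U x ^ (-(2 * bb n)) * normSq g D.K x := fun x a b => by
    rw [Fin1.nsq_eq rfl (i1 x (F0 x a)).eq_of_nhds, (cf1 x).2.1, nsq_cu, Fin1.nsq_eq (g4 x b) rfl]
    refine mul_le_mul_of_nonneg_left (mul_le_of_le_one_left (nsq0 hB.met hB.sy x) ?_)
      (Real.rpow_pos_of_pos (U0 x) _).le
    nlinarith [(χ01 x).1, (χ01 x).2]
  have K0 : ∀ x : M, r + 3 ≤ ‖px x‖ → K' x = 0 := fun x hx => by
    rw [(i1 x (F0 x (by linarith))).eq_of_nhds]
    funext i j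
    simp only [ck, cu, χ0 x hx, zero_mul, mul_zero, Pi.zero_apply]
  have b0 := bb_pos hn
  have b2 := bb_le hn
  refine ⟨⟨gc g ρ, K', F, U, ϖ, p, r, 4 * ρ, p0, s₀, min h 1, k₀, β, β₂⟩,
    ⟨hn, g1, ⟨by simp only; linarith, fun x hx => g2.eq x (by simp only at hx; linarith)⟩,
      by simp only; linarith, by simp only; linarith, by simp only; linarith, hU.sm,
      fun x => ⟨by linarith [(Ub x).1], (Ub x).2⟩, hU.out, hU.asy, s3.sm, s3.sy, K0, sF,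
      fun x hx => ?_, pp.sm, pp.p00, pp.pb, fun x hx => pp.pz x (by simp only at hx; linarith),
      fun x hx => ⟨pp.p1 x (by simp only at hx; linarith), ?_⟩, fun x hx hx' => ?_,
      fun x hx hx' => ?_, fun x hx => ⟨?_, v7 x hx⟩, fun x hx hx' => ?_, t0,
      ⟨lt_min h0 one_pos, min_le_right _ _, k1⟩, fun x hx => (hcol x (hx.trans t1)).1,
      fun x a b => ?_, i3, i4, v1, v2, v3, v4, v6⟩, rfl,
    ⟨by simp only; linarith [hU.mass], fun x hx => v8 x (by simp only at hx; linarith), f1,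
      hρ₁ ρ a1 U fun x => by linarith [(abs_le.1 (hU.bd x)).1]⟩⟩
  all_goals simp only [Dat.g] at *
  · linarith [hB.far x (rR.trans hx)]
  · rcases le_total ‖px x‖ ρ with k | k
    · have c1 := pp.core x hx
      have c2 := nsq0 hB.met hB.sy x
      have c3 := (nq x hx k).trans (mul_le_mul_of_nonneg_right
        (P366Y.A.Fin1.pw_le (Ub x).1 (Ub x).2 (by linarith) (by linarith)) c2)
      have c4 := pow_le_pow_left₀ (by positivity) c1 2
      rw [mul_pow, Real.sq_sqrt c2] at c4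
      have c5 := mul_le_mul_of_nonneg_left c3 (show (0 : ℝ) ≤ n by positivity)
      nlinarith [mul_nonneg (show (0 : ℝ) ≤ n * (n - 1) by nlinarith) c2,
        mul_nonneg (show (0 : ℝ) ≤ n * n by positivity) c2]
    · have : normSq (cf U (gc g ρ)) K' x = 0 := by
        simp only [normSq, K0 x (by linarith), Pi.zero_apply, mul_zero, Finset.sum_const_zero]
      rw [this, mul_zero]
      positivity
  · have e := g5 x (by linarith)
    have e' := cu_ev (K := D.K) (χ1 x (by linarith))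
    have c1 := cf2 n M _ _ U hn g1 s1 hU.sm U0 x
    rw [cov_ev e e', Fin1.nsq_eq e.eq_of_nhds e'.eq_of_nhds, gn_of_eq e.eq_of_nhds,
      ← cov_ev EventuallyEq.rfl (i1 x hx)] at c1
    refine lt_of_le_of_lt (add_le_add le_rfl (min_le_right _ _)) ?_
    rw [mu_ev EventuallyEq.rfl (i1 x hx).eq_of_nhds, tr_eq rfl (i1 x hx).eq_of_nhds,
      (cf1 x).2.2.2.2, (cf1 x).1, (cf1 x).2.2.1, mu_ev e e'.eq_of_nhds, lap_of_ev e,
      tr_eq e.eq_of_nhds e'.eq_of_nhds, gn_of_eq e.eq_of_nhds]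
    exact P366Y.A.Fin1.dec_alg (Ub x).1 (Ub x).2 b0 b2 γ1 (hB.dec x hx) (gn_nonneg _ _ _)
      (pp.pb x).1 (hU.str x hx (by linarith)) c1
  · have c1 := nq x (by linarith) (by linarith)
    have c2 := far_cl hB hU κ1 rR (x := x) (by linarith) (by linarith)
    have c3 : U x ^ (-(2 * bb n)) = U x ^ (-(2 * bb n) - 1) * U x := by
      rw [Real.rpow_sub_one (U0 x).ne', div_mul_cancel₀ _ (U0 x).ne']
    have c4 : U x * normSq g D.K x < cl (gc g ρ) U x := by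
      nlinarith [nsq0 hB.met hB.sy x, (Ub x).2]
    have c5 := mul_lt_mul_of_pos_left c4 (Real.rpow_pos_of_pos (U0 x) (-(2 * bb n) - 1))
    unfold mu
    rw [(cf1 x).2.2.2.1]
    rw [c3, mul_assoc] at c1
    linarith
  · exact (le_total ‖px x‖ (2 * ρ)).elim (fun k => (ps x (by linarith) k).le) (fl x)
  · exact hcv U ρ x hU.sm (fun y => (hU.bd y).trans κ3) (r2.trans hx) (by linarith)
      ((hU.gr x hx (by linarith)).trans κ3)
  · exact (i2 x (abs_le.2 ⟨by linarith, b⟩)).trans (neg_le_neg (min_le_left _ _))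

end Vale.Agent.P366M.Y.A
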