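import Vale.Agent.P366M.Ext
import Vale.Agent.P366M.Calc
import Vale.Agent.P366Y.B.Defs

/-!
# P366Q, block A: the reduction to strict data on a manifold (definitions, statements)
-/

open MeasureTheory Metric Filter Topology Set
open scoped ContDiff ENNReal
open Vale.Agent.P366 Vale.Agent.P366.Stmt Vale.Agent.P366Z

noncomputable section

namespace Vale.Agent.P366M.Y.A

section L0

variable {n : ℕ} {M : Type} [Mf0 n M]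

/-- a smooth symmetric tensor -/
structure Sy (K : Fld n M) : Prop where
  sm : SmT K
  sy : ∀ x i j, K x i j = K x j i

/-- the tensor `U ^ b K` -/
def ck (U : M → ℝ) (K : Fld n M) : Fld n M := fun x i j => U x ^ bb n * K x i j

end L0

variable {n : ℕ} {M : Type} [Mfe n M]

/-- zero for `|y| ≤ R0 + 1 / 4`, one for `R0 + 1 / 2 ≤ |y|` -/
def xc (M : Type) [Mfe n M] (y : E n) : ℝ := Real.smoothTransition (‖y‖ ^ 2 - (R0 M + 1 / 4) ^ 2)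

/-- the extension of a function from the end to the whole space, with the value `c` inside -/
def xf (c : ℝ) (u : M → ℝ) : E n → ℝ := fun y => xc M y * fe u y + (1 - xc M y) * c

/-- the extension of a metric from the end to the whole space -/
def xg (g : Fld n M) : Field n := fun y i j => xc M y * fe g y i j + (1 - xc M y) * P366Z.eu n y i j

/-- the extension of a tensor from the end to the whole space -/
def xk (K : Fld n M) : Field n := fun y i j => xc M y * fe K y i j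

/-- decay of order `q` with the constant `C` outside the radius `R` -/
def Af (g : Fld n M) (q C R : ℝ) : Prop := St0.Af (fe g) q C R

/-- decay of the tensor `K` with one derivative -/
def Ak (K : Fld n M) (q C R : ℝ) : Prop := P366Y.B.Ak (fe K) q C R

/-- the metric cut off at the radius `ρ` -/
def gc (g : Fld n M) (ρ : ℝ) : Fld n M :=
  fun x i j => cut ρ x * g x i j + (1 - cut ρ x) * bg x i j

/-- the error of the scalar curvature -/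
def er (g : Fld n M) (ρ : ℝ) (x : M) : ℝ := scal (gc g ρ) x - cut ρ x * scal g x

/-- the metric with its decay and its energy -/
structure B0 (g : Fld n M) (q C R m : ℝ) : Prop where
  dim : 3 ≤ n
  met : Met g
  q0 : (n : ℝ) / 2 - 1 < q
  C0 : 0 < C
  R1 : R0 M + 2 ≤ R
  af : Af g q C R
  en : Tendsto (flx fun i y => St0.yv (fe g) i y / 2) atTop (𝓝 m)

/-- the data -/
structure Bk (g K : Fld n M) (F : M → ℝ) (q C R m : ℝ) : Prop extends B0 g q C R m where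
  ext : IsExt F
  far : ∀ x, R ≤ ‖px x‖ → 1 ≤ F x
  deep : ∃ x, F x < 0
  sy : Sy K
  dk : ∀ x, R ≤ ‖px x‖ →
    √(normSq g K x) ≤ C * ‖px x‖ ^ (-(q + 1)) ∧ |tr g K x| ≤ C * ‖px x‖ ^ (-(q + 1))
  dec : ∀ x, 0 ≤ F x → covNorm g (mom g K) x ≤ mu g K x
  trap : ∀ x, F x = 0 → thetaPlus g K F x ≤ 0

/-- **EXK**: the constants of the data (also the row `EXQ` of block B) -/
def EXK : Prop := ∀ (n : ℕ) (M : Type) [Mfe n M] (D : Exterior n M) (m : ℝ), 3 ≤ n → D.IsAF →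
  D.DEC → D.Trapped → D.IsEnergy m → ∃ F q C R, Bk D.g D.K F q C R m ∧ Ak D.K q C R ∧
    q ≤ n - 2 ∧ (∀ x, 0 ≤ F x ↔ 0 ≤ D.F x) ∧ (∀ x, D.F x ≤ 0 → F x ≤ 0) ∧ ∃ x, F x = 0

/-- **CF1**: the algebraic conformal laws and the energy density -/
def CF1 : Prop := ∀ (n : ℕ) (M : Type) [Mf0 n M] (g K : Fld n M) (U : M → ℝ), 3 ≤ n → Met g →
  Sy K → Smooth U → (∀ x, 0 < U x) → Met (cf U g) ∧ Sy (ck U K) ∧ ∀ x,
    tr (cf U g) (ck U K) x = U x ^ (-bb n) * tr g K x ∧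
    normSq (cf U g) (ck U K) x = U x ^ (-(2 * bb n)) * normSq g K x ∧
    (∀ v, gn (cf U g) v x = U x ^ (-bb n) * gn g v x) ∧
    scal (cf U g) x = U x ^ (-(2 * bb n) - 1) * cl g U x ∧
    mu (cf U g) (ck U K) x = U x ^ (-(2 * bb n)) * (mu g K x - 2 * gam n * lap g U x / U x)

/-- **CF2**: the conformal law of the momentum density -/
def CF2 : Prop := ∀ (n : ℕ) (M : Type) [Mf0 n M] (g K : Fld n M) (U : M → ℝ), 3 ≤ n → Met g →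
  Sy K → Smooth U → (∀ x, 0 < U x) → ∀ x,
    covNorm (cf U g) (mom (cf U g) (ck U K)) x ≤ U x ^ (-(2 * bb n)) *
      (covNorm g (mom g K) x + 2 * gam n * (√(normSq g K x) * gn g U x) / U x)

/-- **CF3**: the conformal law of the null expansion -/
def CF3 : Prop := ∀ (n : ℕ) (M : Type) [Mf0 n M] (g K : Fld n M) (U F : M → ℝ) (x : M), 3 ≤ n →
  Met g → Sy K → Smooth U → (∀ y, 0 < U y) → Smooth F → gn g F x ≠ 0 →
    thetaPlus (cf U g) (ck U K) F x =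
      U x ^ (-bb n) * (thetaPlus g K F x + 2 * gam n * ip g U F x / (U x * gn g F x))

/-- **COK**: from the boundary to a collar -/
def COK : Prop := ∀ (n : ℕ) (M : Type) [Mfe n M] (g K : Fld n M) (F : M → ℝ), Met g → Sy K →
  Smooth F → (∃ R, ∀ x, R ≤ ‖px x‖ → 1 ≤ F x) →
  (∀ x, F x = 0 → gn g F x ≠ 0 ∧ thetaPlus g K F x < 0) →
  ∃ s > (0 : ℝ), ∃ h > (0 : ℝ), ∀ x, |F x| ≤ s → gn g F x ≠ 0 ∧ thetaPlus g K F x ≤ -h

/-- **CONN**: the open exterior domain is connected -/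
def CONN : Prop := ∀ (n : ℕ) (M : Type) [Mfe n M] (F : M → ℝ), IsExt F →
  IsPreconnected {x | 0 < F x}

/-- **THK**: a strict supersolution with a drift that decreases away from the boundary -/
def THK : Prop := ∀ (n : ℕ) (M : Type) [Mfe n M] (g : Fld n M) (F : M → ℝ) (R' k : ℝ), 3 ≤ n →
  Met g → IsExt F → 0 ≤ k → ∃ θ, Smooth θ ∧
    (∀ x, 0 ≤ F x → ‖px x‖ ≤ R' → lap g θ x + k * gn g θ x < 0) ∧ ∀ x, F x = 0 → ip g θ F x < 0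

/-- **CUTM**: the metric cut off -/
def CUTM : Prop := ∀ (n : ℕ) (q C : ℝ), 0 < C → ∃ C' > (0 : ℝ), ∀ (M : Type) [Mfe n M]
  (g : Fld n M) (R ρ : ℝ), Met g → Af g q C R → R0 M + 2 ≤ R → R ≤ ρ →
    Met (gc g ρ) ∧ Flat (gc g ρ) (2 * ρ) ∧ Af (gc g ρ) q C' R ∧
      (∀ x, ‖px x‖ ≤ ρ → gc g ρ x = g x) ∧ ∀ x, ‖px x‖ < ρ → gc g ρ =ᶠ[𝓝 x] g

/-- **FEK**: the error of the scalar curvature -/
def FEK : Prop := ∀ (n : ℕ) (M : Type) [Mfe n M] (g : Fld n M) q C R m, B0 g q C R m →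
  ∃ K > (0 : ℝ), ∃ ρ₀ : ℝ, ∀ ρ ≥ ρ₀, ∀ x, (‖px x‖ ≤ ρ ∨ 2 * ρ ≤ ‖px x‖ → er g ρ x = 0) ∧
    (ρ ≤ ‖px x‖ → |er g ρ x| ≤ K * ‖px x‖ ^ (-(q + 2)))

/-- **USK**: the correction of the scalar curvature, cut off in the core -/
def USK : Prop := ∀ (n : ℕ) (M : Type) [Mfe n M] (g : Fld n M) q C R m, B0 g q C R m →
  ∀ R' : ℝ, ∀ e > (0 : ℝ), ∃ ρ₀ : ℝ, ∀ ρ ≥ ρ₀, ∃ u β, Smooth u ∧ (∀ x, |u x - 1| ≤ e) ∧
    (∀ x, ‖px x‖ ≤ R' → gn g u x ≤ e ∧ |lap g u x| ≤ e ∧ (R ≤ ‖px x‖ → ‖fd u x‖ ≤ e)) ∧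
    (∀ x, R ≤ ‖px x‖ → 4 * gam n * lap (gc g ρ) u x = er g ρ x * u x) ∧ Asy u 1 β ∧ 2 * β ≤ m + e

/-- the margin -/
def mg (q' : ℝ) (x : M) : ℝ := (1 + ‖px x‖) ^ (-(n + q'))

/-- **WK**: the strict supersolution on the exterior domain -/
def WK : Prop := ∀ (n : ℕ) (M : Type) [Mfe n M] (g K : Fld n M) F q C R m q', Bk g K F q C R m →
  0 < q' → q' < q → ∃ L > (0 : ℝ), ∃ c > (0 : ℝ), ∃ ρ₀ : ℝ, ∀ ρ ≥ ρ₀, ∃ w β, Smooth w ∧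
    (∀ x, |w x| ≤ L) ∧ (∀ x, R ≤ ‖px x‖ → ‖px x‖ * ‖fd w x‖ ≤ L) ∧
    (∀ x, 0 ≤ F x → ‖px x‖ < ρ → lap g w x + √(normSq g K x) * gn g w x ≤ -(c * mg q' x)) ∧
    (∀ x, R ≤ ‖px x‖ → ‖px x‖ ≤ 2 * ρ →
      c * mg q' x ≤ -(4 * gam n) * lap (gc g ρ) w x + er g ρ x * w x) ∧
    (∀ x, 2 * ρ ≤ ‖px x‖ → lap (gc g ρ) w x ≤ 0) ∧
    (∀ x, 4 * ρ ≤ ‖px x‖ → lap (gc g ρ) w x = 0) ∧
    (∀ x, F x = 0 → ip g w F x ≤ -c) ∧ Asy w 0 β ∧ β ≤ L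

/-- the function `p` of the dead core and its radius -/
structure Pp (g K : Fld n M) (F : M → ℝ) (A r p0 : ℝ) (p : M → ℝ) : Prop where
  p00 : 0 < p0
  sm : Smooth p
  pb : ∀ x, 0 ≤ p x ∧ p x ≤ p0
  p1 : ∀ x, r / 2 ≤ ‖px x‖ → p x = p0
  pz : ∀ x, F x < 1 → p x = 0
  core : ∀ x, r ≤ ‖px x‖ → A * √(normSq g K x) ≤ p0

/-- **PPK**: the function `p` -/
def PPK : Prop := ∀ (n : ℕ) (M : Type) [Mfe n M] (g K : Fld n M) F q C R m q', Bk g K F q C R m →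
  0 < q' → n + q' < 2 + 2 * q → ∀ A > (0 : ℝ), ∀ c > (0 : ℝ), ∀ r₀ : ℝ, ∃ r ≥ r₀, ∃ p0 p,
    Pp g K F A r p0 p ∧ (∀ x, ‖px x‖ ≤ 2 * r → gn g p x + p x * |tr g K x| ≤ c * mg q' x) ∧
      ∀ x, r ≤ ‖px x‖ → normSq g K x + tr g K x ^ 2 ≤ c * mg q' x

/-- the conformal factor -/
structure Fk (g K : Fld n M) (F p : M → ℝ) (m η r ρ : ℝ) (U : M → ℝ) (β : ℝ) : Prop where
  sm : Smooth U
  bd : ∀ x, |U x - 1| ≤ η
  gr : ∀ x, r ≤ ‖px x‖ → ‖px x‖ ≤ 2 * r → ‖px x‖ * ‖fd U x‖ ≤ η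
  str : ∀ x, 0 ≤ F x → ‖px x‖ ≤ 2 * r →
    lap g U x + √(normSq g K x) * gn g U x + 4 * (gn g p x + p x * |tr g K x|) < 0
  pos : ∀ x, r ≤ ‖px x‖ → ‖px x‖ ≤ 2 * ρ →
    2 * (normSq g K x + tr g K x ^ 2) < -(4 * gam n) * lap (gc g ρ) U x + er g ρ x * U x
  neg : ∀ x, 2 * ρ ≤ ‖px x‖ → lap (gc g ρ) U x ≤ 0
  out : ∀ x, 4 * ρ ≤ ‖px x‖ → lap (gc g ρ) U x = 0
  dir : ∀ x, F x = 0 → ip g U F x < 0
  asy : Asy U 1 β
  mass : 2 * β ≤ m + η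

/-- **PRE**: the conformal factor exists -/
def PRE : Prop := ∀ (n : ℕ) (M : Type) [Mfe n M] (g K : Fld n M) F q C R m, Bk g K F q C R m →
  ∀ η > (0 : ℝ), ∀ A > (0 : ℝ), ∀ r₀ : ℝ, ∃ r ≥ r₀, ∃ p0 p, Pp g K F A r p0 p ∧ ∃ ρ₀ : ℝ,
    ∀ ρ ≥ ρ₀, ∃ U β, Fk g K F p m η r ρ U β

/-- **INN**: the tensor is made very negative inside the boundary -/
def INN : Prop := ∀ (n : ℕ) (M : Type) [Mfe n M] (g K : Fld n M) (F : M → ℝ) (s h : ℝ), 3 ≤ n →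
  Met g → Sy K → Smooth F → (∃ R, ∀ x, R ≤ ‖px x‖ → 1 ≤ F x) → 0 < s →
  (∀ x, |F x| ≤ s → gn g F x ≠ 0 ∧ thetaPlus g K F x ≤ -h) →
  ∃ (K' : Fld n M) (k₀ : ℝ), Sy K' ∧ 1 ≤ k₀ ∧ (∀ x, 0 ≤ F x → K' =ᶠ[𝓝 x] K) ∧
    (∀ x, |F x| ≤ s → thetaPlus g K' F x ≤ -h) ∧
    (∀ x, F x ≤ -(s / 16) → ∀ ξ : Fin n → ℝ,
      ∑ i, ∑ j, K' x i j * ξ i * ξ j ≤ -k₀ * ∑ i, ∑ j, g x i j * ξ i * ξ j) ∧
    ∀ x, -(s / 8) ≤ F x → F x ≤ -(s / 16) → 16 * n * normSq g (hess g F) x ≤ k₀ ^ 2 * ip g F F x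

end Vale.Agent.P366M.Y.A
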