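import Vale.Agent.P366Q.A.Xt
import Vale.Agent.P366Y.A.Fin1
import Vale.Agent.P366Y.C.Orth

/-!
# P366Q, block A: locality and the pointwise inequalities
-/

open MeasureTheory Metric Filter Topology Set
open scoped ContDiff ENNReal
open Vale.Agent.P366 Vale.Agent.P366.Stmt Vale.Agent.P366Z

noncomputable section

namespace Vale.Agent.P366M.Y.A

section L0

variable {n : ℕ} {M : Type} [Mf0 n M] {g g' K K' : Fld n M} {F F' U χ u w : M → ℝ} {x : M}

namespace Fin1

theorem tr_eq (e : g x = g' x) (e' : K x = K' x) : tr g K x = tr g' K' x := tr_of_eq e e'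

theorem nsq_eq (e : g x = g' x) (e' : K x = K' x) : normSq g K x = normSq g' K' x :=
  normSq_of_eq e e'

theorem momT_eq (e : g x = g' x) (e' : K x = K' x) : momT g K x = momT g' K' x := by
  funext i j
  simp only [momT, tr_eq e e', e, e']

theorem mom_ev (e : g =ᶠ[𝓝 x] g') (e' : K =ᶠ[𝓝 x] K') (j : Fin n) :
    mom g K j x = mom g' K' j x := mom_of_ev e e' j

theorem cov_ev (e : g =ᶠ[𝓝 x] g') (e' : K =ᶠ[𝓝 x] K') :
    covNorm g (mom g K) x = covNorm g' (mom g' K') x := by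
  simp only [covNorm, up_of_eq e.eq_of_nhds, mom_ev e e']

theorem mu_ev (e : g =ᶠ[𝓝 x] g') (e' : K x = K' x) : mu g K x = mu g' K' x := mu_of_ev e e'

theorem th_ev (e : g =ᶠ[𝓝 x] g') (e' : K x = K' x) :
    thetaPlus g K F x = thetaPlus g' K' F x := by
  simp only [thetaPlus, trS, tr, hess, nrm, covNorm, up_of_eq e.eq_of_nhds, chr_of_ev e, e']

theorem th_congr (e : F =ᶠ[𝓝 x] F') : thetaPlus g K F x = thetaPlus g K F' x := by
  simp only [thetaPlus, trS, tr, hess, nrm, covNorm, pd_congr e, pd2_congr e]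

/-- the tensor that is cut off -/
def cu (χ : M → ℝ) (K : Fld n M) : Fld n M := fun x i j => χ x * K x i j

theorem sy_cu (hχ : Smooth χ) (hK : Sy K) : Sy (cu χ K) :=
  ⟨SmT.smul hχ hK.sm, fun x i j => by simp only [cu, hK.sy x i j]⟩

theorem nsq_cu : normSq g (cu χ K) x = χ x ^ 2 * normSq g K x := by
  simp only [normSq, cu, Finset.mul_sum]
  refine Finset.sum_congr rfl fun i _ => Finset.sum_congr rfl fun j _ =>
    Finset.sum_congr rfl fun k _ => Finset.sum_congr rfl fun l _ => by ring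

theorem cu_ev (h : χ =ᶠ[𝓝 x] fun _ => 1) : cu χ K =ᶠ[𝓝 x] K := by
  filter_upwards [h] with y hy
  funext i j
  simp only [cu, hy, one_mul]

theorem nsq0 (hg : Met g) (hK : Sy K) (x : M) : 0 ≤ normSq g K x := by
  rw [← normSq_pt]
  exact (P366Y.C.orth n _ _ (fun _ => 0) (fun _ => 0) _ (hg.loc' x) (rep_sy hK.sy _ _)).1

end Fin1

namespace Asm

theorem small {X : Type} [TopologicalSpace X] {S : Set X} (hS : IsCompact S) {a b : X → ℝ}
    (ha : Continuous a) (hb : Continuous b) (h : ∀ x ∈ S, 0 < a x) :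
    ∃ t₀ > (0 : ℝ), ∀ t, 0 ≤ t → t ≤ t₀ → ∀ x ∈ S, 0 < a x + t * b x := by
  obtain ⟨c, c0, hc⟩ := hS.exists_forall_le' ha.continuousOn (a := 0) h
  obtain ⟨B, hB⟩ := hS.exists_bound_of_continuousOn hb.continuousOn
  refine ⟨c / (2 * (|B| + 1)), by positivity, fun t t0 t1 x hx => ?_⟩
  have h1 := hc x hx
  have h2 : |b x| ≤ |B| := (hB x hx).trans (le_abs_self B)
  have h3 : t * (2 * (|B| + 1)) ≤ c := (le_div_iff₀ (by positivity)).1 t1
  have h4 : t * (-|B|) ≤ t * b x :=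
    mul_le_mul_of_nonneg_left (by linarith [neg_abs_le (b x)]) t0
  linarith

theorem pd_lin (hu : Smooth u) (hw : Smooth w) (s t : ℝ) (i : Fin n) (x : M) :
    pd i (fun y => s * u y + t * w y) x = s * pd i u x + t * pd i w x := by
  rw [pd_add ((hu.diff x).const_mul s) ((hw.diff x).const_mul t), pd_const_mul, pd_const_mul]

theorem sm_lin (hu : Smooth u) (hw : Smooth w) (s t : ℝ) : Smooth fun y => s * u y + t * w y :=
  CD.add (CD.mul cd_const hu) (CD.mul cd_const hw)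

theorem ip_lin (hu : Smooth u) (hw : Smooth w) (s t : ℝ) (x : M) :
    ip g (fun y => s * u y + t * w y) F x = s * ip g u F x + t * ip g w F x :=
  ip_of_pd_add fun i => pd_lin hu hw s t i x

theorem cl_lin (hg : Met g) (hu : Smooth u) (hw : Smooth w) (s t : ℝ) (x : M) :
    cl g (fun y => s * u y + t * w y) x = s * cl g u x + t * cl g w x := by
  unfold cl
  rw [hg.lap_lin (hu.c2 x) (hw.c2 x)]
  ring

theorem cont_cl (hg : Met g) (hu : Smooth u) : Continuous (cl g u) := (hg.sm_cl hu).cont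

theorem ip_pos (hg : Met g) (h : ∃ i, pd i F x ≠ 0) : 0 < ip g F F x := h.elim fun i hi =>
  hg.up_pos x (ξ := fun j => pd j F x) fun k => hi (congrFun k i)

theorem gn_ne (hg : Met g) (h : ∃ i, pd i F x ≠ 0) : gn g F x ≠ 0 :=
  (Real.sqrt_pos.2 (ip_pos hg h)).ne'

theorem gn_lin (hg : Met g) (hu : Smooth u) (hw : Smooth w) {d : ℝ} (hd : 0 ≤ d) (x : M) :
    gn g (fun y => 1 * u y + d * w y) x ≤ gn g u x + d * gn g w x := by
  refine (hg.gn_add_le (u₁ := u) (u₂ := fun y => d * w y) fun i => ?_).trans_eq ?_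
  · rw [pd_lin hu hw, one_mul, pd_const_mul]
  · rw [gn_of_pd (u := fun y => d * w y) (u' := w) (s := d) fun i => pd_const_mul _ _,
      abs_of_nonneg hd]

theorem fd_lin (hu : Smooth u) (hw : Smooth w) {d : ℝ} (hd : 0 ≤ d) (x : M) :
    ‖fd (fun y => 1 * u y + d * w y) x‖ ≤ ‖fd u x‖ + d * ‖fd w x‖ := by
  simp only [one_mul]
  rw [fd_add (hu.diff x) ((hw.diff x).const_mul d),
    show fd (fun y => d * w y) x = d • fd w x from fderiv_const_mul (hw.diff x) d]
  refine (norm_add_le _ _).trans_eq ?_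
  rw [norm_smul, Real.norm_of_nonneg hd]

theorem cont_k (hg : Met g) (hK : Sy K) : Continuous fun x => √(normSq g K x) :=
  (hg.sm_normSq hK.sm).cont.sqrt

end Asm

end L0

variable {n : ℕ} {M : Type} [Mfe n M] {q q' C C' R : ℝ} {g : Fld n M} {x : M}

theorem Fin1.ex_chi {a b : ℝ} (ha : 0 < a) (hab : a < b) : ∃ χ : M → ℝ, Smooth χ ∧
    (∀ x, 0 ≤ χ x ∧ χ x ≤ 1) ∧ (∀ x : M, ‖px x‖ < a → χ =ᶠ[𝓝 x] fun _ => 1) ∧
    ∀ x : M, b ≤ ‖px x‖ → χ x = 0 := by
  obtain ⟨χ, h1, h2, h3, h4⟩ := P366Y.A.Fin1.ex_chi (n := n) ha hab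
  exact ⟨fun x => χ (px x), smooth_px h1, fun x => h2 _,
    fun x hx => cont_px.continuousAt.eventually (h3 _ hx), fun x hx => h4 _ hx⟩

namespace WkH

theorem pw {r : ℝ} (h1 : 1 ≤ r) (hq : q' ≤ q) (hC : C ≤ C') (C0 : 0 ≤ C') :
    C * r ^ (-q) ≤ C' * r ^ (-q') :=
  mul_le_mul hC (Real.rpow_le_rpow_of_exponent_le h1 (neg_le_neg hq)) (by positivity) C0

theorem af_mono (h : Af g q C R) (h1 : 1 ≤ R) (hq : q' ≤ q) (hC : C ≤ C') (C0 : 0 ≤ C') :
    Af g q' C' R := fun x hx i j k l =>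
  ⟨(h x hx i j k l).1.trans (pw (h1.trans hx) hq hC C0),
    (h x hx i j k l).2.1.trans (pw (h1.trans hx) (by linarith) hC C0),
    (h x hx i j k l).2.2.trans (pw (h1.trans hx) (by linarith) hC C0)⟩

theorem mg_eq (q' : ℝ) (x : M) : mg q' x = P366Y.A.mg q' (px x) := rfl

theorem mg_pos : 0 < mg q' x := by unfold mg; positivity

theorem mg_le (h : 0 < q') : mg q' x ≤ 1 :=
  Real.rpow_le_one_of_one_le_of_nonpos (le_add_of_nonneg_right (norm_nonneg _))
    (neg_nonpos.2 (by positivity))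

theorem mg_le' (h : 0 < q') (hx : 0 < ‖px x‖) : mg q' x ≤ ‖px x‖ ^ (-(n + q')) :=
  Real.rpow_le_rpow_of_nonpos hx (by linarith) (neg_nonpos.2 (by positivity))

theorem cont_mg (q' : ℝ) : Continuous (mg q' : M → ℝ) :=
  (continuous_const.add cont_npx).rpow_const fun x =>
    .inl (add_pos_of_pos_of_nonneg one_pos (norm_nonneg (px x))).ne'

end WkH

end Vale.Agent.P366M.Y.A
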