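import Vale.Agent.P366Q.A.Fin1
import Vale.Agent.P366Y.A.Hop

/-!
# P366Q, block A: the bump subsolution, the collar, connectedness
-/

open MeasureTheory Metric Filter Topology Set
open scoped ContDiff ENNReal
open Vale.Agent.P366 Vale.Agent.P366.Stmt Vale.Agent.P366Z

noncomputable section

namespace Vale.Agent.P366M.Y.A

section L0

variable {n : ℕ} {M : Type} [Mf0 n M] {g K T : Fld n M} {F : M → ℝ} {e : Ch n M} {x : M}

/-- a function with compact support in a chart, extended by zero -/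
theorem ex_zero (he : e ∈ At M) {z : E n → ℝ} (hz : Stmt.Smooth z) {B : Set (E n)}
    (hB : IsCompact B) (h0 : ∀ w ∉ B, z w = 0) : ∃ Z : M → ℝ, Smooth Z ∧ loc e Z = z ∧
      ∀ x ∉ e.symm '' B, Z =ᶠ[𝓝 x] fun _ => 0 := by
  classical
  have h1 : loc e (fun x => if x ∈ e.source then z (e x) else 0) = z := funext fun w => by
    simp only [loc, symm_mem he w, if_true, right_inv he w]
  have h2 : ∀ x ∉ e.symm '' B, (fun x => if x ∈ e.source then z (e x) else 0) =ᶠ[𝓝 x]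
      fun _ => 0 := fun x hx => by
    filter_upwards [(hB.image (cont_symm he)).isClosed.isOpen_compl.mem_nhds hx] with p hp
    split_ifs with k
    · exact h0 _ fun k' => hp ⟨_, k', e.left_inv k⟩
    · rfl
  refine ⟨_, cd_of_cAt le_rfl fun x => ?_, h1, h2⟩
  by_cases k : x ∈ e.symm '' B
  · obtain ⟨w, -, rfl⟩ := k
    exact cAt_of_loc le_rfl he (by rw [h1]; exact ContDiff.contDiffAt hz)
  · exact cAt_const.congr_of_eventuallyEq (h2 x k)

/-- the operator -/
def op (g : Fld n M) (k : ℝ) (z : M → ℝ) (x : M) : ℝ := lap g z x - k * gn g z x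

theorem op_ev {k c : ℝ} {z : M → ℝ} (h : z =ᶠ[𝓝 x] fun _ => c) : op g k z x = 0 := by
  rw [op, lap_congr h, gn_congr h, lap_const, gn_zero fun i => pd_const c i x, mul_zero, sub_zero]

/-- a bump that is a subsolution outside a small ball of a chart -/
theorem hop (hg : Met g) (he : e ∈ At M) (y : E n) (k : ℝ) {σ r : ℝ} (h0 : 0 < σ) (hr : σ < r) :
    ∃ z, Smooth z ∧ (∀ x ∉ e.symm '' closedBall y r, z =ᶠ[𝓝 x] fun _ => 0) ∧
      (∀ x ∉ e.symm '' closedBall y σ, 0 ≤ op g k z x) ∧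
      ∀ w, σ ≤ ‖w - y‖ → ‖w - y‖ < r → 0 < op g k z (e.symm w) := by
  obtain ⟨z, a1, a2, a3, a4⟩ := P366Y.A.hop n _ y k σ r (hg.rep he) h0 hr
  obtain ⟨Z, b1, rfl, b3⟩ := ex_zero he a1 (isCompact_closedBall y r) fun w hw =>
    a2 w (not_le.1 (mem_closedBall_iff_norm.not.1 hw)).le
  have c : ∀ w, op g k Z (e.symm w) = P366Z.lap (rep e g) (loc e Z) w -
      k * P366Z.gn (rep e g) (loc e Z) w := fun w => by
    rw [op, lap_rep hg he (b1.c2 _), gn_rep he g (b1.diff _)]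
  refine ⟨Z, b1, b3, fun x hx => ?_, fun w h1 h2 => c w ▸ a4 w h1 h2⟩
  by_cases h : x ∈ e.symm '' closedBall y r
  · obtain ⟨w, -, rfl⟩ := h
    exact c w ▸ a3 w (not_lt.1 fun h => hx ⟨w, mem_closedBall_iff_norm.2 h.le, rfl⟩)
  · exact (op_ev (b3 x h)).ge

theorem trS_eq (g T : Fld n M) (F : M → ℝ) (x : M) : trS g T F x =
    tr g T x - (∑ i, ∑ j, T x i j * gr g F i x * gr g F j x) / gn g F x ^ 2 := by
  unfold trS
  simp only [Finset.sum_div]
  congr 1
  refine Finset.sum_congr rfl fun i _ => Finset.sum_congr rfl fun j _ => ?_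
  change T x i j * (gr g F i x / gn g F x) * (gr g F j x / gn g F x) = _
  ring

theorem cont_theta (hg : Met g) (hK : SmT K) (hF : Smooth F) :
    ContinuousOn (thetaPlus g K F) {x | gn g F x ≠ 0} := by
  have c0 := (hg.cont_gn hF.one).continuousOn (s := {x | gn g F x ≠ 0})
  have c2 : ∀ T : Fld n M, SmT T → ContinuousOn (trS g T F) {x | gn g F x ≠ 0} := fun T hT => by
    rw [funext (trS_eq g T F)]
    exact (hg.sm_tr hT).cont.continuousOn.sub
      ((hT.quad le_rfl (hg.sm_gr hF) (hg.sm_gr hF)).continuous.continuousOn.div (c0.pow 2)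
        fun _ hx => pow_ne_zero 2 hx)
  exact ((c2 _ (hg.sm_hess hF)).div c0 fun _ hx => hx).add (c2 _ hK)

theorem conn_loc (hF : Smooth F) (h0 : 0 ≤ F x) (h : F x = 0 → ∃ i, pd i F x ≠ 0) :
    ∃ W ∈ 𝓝 x, ∃ z, ∀ y ∈ W, 0 < F y →
      ∃ S ⊆ {x | 0 < F x}, IsPreconnected S ∧ y ∈ S ∧ z ∈ S := by
  obtain ⟨W, hW, z, H⟩ := St0.ExtA.loc (x := pt x) (hF.lc (ch_mem x)) (by rwa [loc_pt])
    (by rwa [loc_pt])
  refine ⟨_, image_nhds x hW, (ch x).symm z, ?_⟩
  rintro _ ⟨y, hy, rfl⟩ k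
  obtain ⟨S, s1, s2, s3, s4⟩ := H y hy k
  exact ⟨_, image_subset_iff.2 s1, s2.image _ (cont_symm (ch_mem x)).continuousOn,
    mem_image_of_mem _ s3, mem_image_of_mem _ s4⟩

theorem conn_clo (hF : Smooth F) (h0 : 0 ≤ F x) (h : F x = 0 → ∃ i, pd i F x ≠ 0) :
    x ∈ closure {x | 0 < F x} := by
  have := map_mem_closure (cont_symm (ch_mem x)) (t := {x | 0 < F x})
    (St0.ExtA.clo (x := pt x) (hF.lc (ch_mem x)) (by rwa [loc_pt]) (by rwa [loc_pt]))
    fun _ k => k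
  rwa [symm_pt] at this

end L0

theorem conn : CONN := by
  intro n M _ F ⟨hF, h1, h2, _⟩ u v hu hv hc ⟨a, ha⟩ ⟨b, hb⟩
  obtain ⟨x, hx, k1, k2⟩ := isPreconnected_closed_iff.1 h2.isPreconnected
    (closure ({x | 0 < F x} ∩ u)) (closure ({x | 0 < F x} ∩ v)) isClosed_closure isClosed_closure
    (fun x hx => by
      rw [← closure_union, ← inter_union_distrib_left, inter_eq_left.2 hc]
      exact conn_clo hF hx (h1 x))
    ⟨a, le_of_lt (b := F a) ha.1, subset_closure ha⟩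
    ⟨b, le_of_lt (b := F b) hb.1, subset_closure hb⟩
  obtain ⟨W, hW, z, h⟩ := conn_loc hF hx (h1 x)
  obtain ⟨y, y1, y2⟩ := mem_closure_iff_nhds.1 k1 W hW
  obtain ⟨y', y1', y2'⟩ := mem_closure_iff_nhds.1 k2 W hW
  obtain ⟨S, s1, s2, s3, s4⟩ := h y y1 y2.1
  obtain ⟨S', s1', s2', s3', s4'⟩ := h y' y1' y2'.1
  obtain ⟨w, w1, w2⟩ := (s2.union z s4 s4' s2') u v hu hv ((union_subset s1 s1').trans hc)
    ⟨y, Or.inl s3, y2.2⟩ ⟨y', Or.inr s3', y2'.2⟩
  exact ⟨w, union_subset s1 s1' w1, w2⟩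

theorem cok : COK := by
  rintro n M _ g K F hg hK0 hF ⟨R, hR⟩ h
  have hc := cont_theta hg hK0.sm hF
  have hK : IsCompact {x | |F x| ≤ 1 / 2} := cpt_of (R := R)
    (isClosed_le hF.cont.abs continuous_const) fun x hx =>
      (not_lt.1 fun k => by linarith [hR x k.le, (abs_le.1 (show |F x| ≤ 1 / 2 from hx)).2])
  have hS : IsCompact {x | F x = 0} := hK.of_isClosed_subset (isClosed_eq hF.cont continuous_const)
    fun x hx => by simp [show F x = 0 from hx]
  obtain ⟨a, a0, ha⟩ := hS.exists_forall_le' (f := fun x => -thetaPlus g K F x) (a := 0)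
    (hc.mono fun x hx => (h x hx).1).neg fun x hx => neg_pos.2 (h x hx).2
  have hW : IsOpen ({x | gn g F x ≠ 0} ∩ thetaPlus g K F ⁻¹' Iio (-(a / 2))) :=
    hc.isOpen_inter_preimage (isOpen_ne_fun (hg.cont_gn hF.one) continuous_const) isOpen_Iio
  obtain ⟨s, s0, hs⟩ := (hK.diff hW).exists_forall_le' (f := fun x => |F x|) (a := 0)
    hF.cont.abs.continuousOn fun x hx => abs_pos.2 fun k =>
      hx.2 ⟨(h x k).1, show _ < -(a / 2) by linarith [ha x k]⟩
  refine ⟨min (s / 2) (1 / 2), by positivity, a / 2, by positivity, fun x hx => ?_⟩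
  by_contra k
  have := hs x ⟨hx.trans (min_le_right _ _), fun k' => k ⟨k'.1, le_of_lt k'.2⟩⟩
  linarith [hx.trans (min_le_left _ _)]

end Vale.Agent.P366M.Y.A
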