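import Vale.Agent.P366Q.A.Fin1
import Vale.Agent.P366Y.A.Usk
import Vale.Agent.P366Y.A.Pre

/-!
# P366Q, block A, rows CUTM, FEK and USK: the correction of the scalar curvature
-/

open MeasureTheory Metric Filter Topology Set
open scoped ContDiff ENNReal
open Vale.Agent.P366 Vale.Agent.P366.Stmt Vale.Agent.P366Z

noncomputable section

namespace Vale.Agent.P366M.Y.A

section

variable {n : ℕ} {M : Type} [Mfe n M] {g : Fld n M} {ρ : ℝ} {x : M}

theorem met_gc (hg : Met g) (ρ : ℝ) : Met (gc g ρ) where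
  sm := (SmT.smul (sm_cut ρ) hg.sm).add (SmT.smul (CD.sub cd_const (sm_cut ρ)) bg_met.sm)
  sy x i j := by rw [gc, gc, hg.sy, bg_met.sy x i j]
  pos x := posDef_mix (hg.pos x) (bg_met.pos x) (cut_nonneg ρ x) (cut_le_one ρ x)

theorem gc_in (hx : ‖px x‖ ≤ ρ) : gc g ρ x = g x := by
  funext i j
  rw [gc, cut_one hx]; ring

theorem gc_ev (hx : ‖px x‖ < ρ) : gc g ρ =ᶠ[𝓝 x] g := (ev_px_lt hx).mono fun _ hy => gc_in hy.le

end

/-- **CUTM** -/
theorem cutm : CUTM := by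
  intro n q C hC
  obtain ⟨C', C0, h⟩ := St0.cutm n q C hC
  refine ⟨C', C0, fun M _ g R ρ hg hA hR hρ => ?_⟩
  have h0 := R0_ge M
  obtain ⟨-, a2, a3, -⟩ := h _ R ρ (met_xg hg) (((tw_xg g).af (by linarith)).1 hA) (by linarith) hρ
  exact ⟨met_gc hg ρ, (((tw_xg g).gc ρ).flat (by linarith)).2 a2,
    (((tw_xg g).gc ρ).af (by linarith)).2 a3, fun _ => gc_in, fun _ => gc_ev⟩

/-- **FEK** -/
theorem fek : FEK := by
  intro n M _ g q C R m hB
  obtain ⟨K, K0, ρ₀, h⟩ := P366Y.A.fek n _ q C R m hB.old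
  refine ⟨K, K0, max ρ₀ (R0 M + 1), fun ρ hρ x => ?_⟩
  have h0 := R0_ge M
  have h1 : R0 M + 1 ≤ ρ := (le_max_right _ _).trans hρ
  obtain ⟨a1, -, a2⟩ := (h ρ ((le_max_left _ _).trans hρ)).2 (px x)
  refine ⟨fun hx => ?_, fun hx => ?_⟩
  · rcases lt_or_ge ‖px x‖ ρ with k | k
    · rw [er, scal_of_ev (gc_ev k), cut_one k.le, one_mul, sub_self]
    · rw [(tw_xg g).er ρ (by linarith), a1 hx]
  · rw [(tw_xg g).er ρ (by linarith)]
    exact a2 hx

theorem UskH.core {n : ℕ} {G : Field n} (hG : P366Z.Met G) {ψ : E n → ℝ} (hψ : Stmt.Smooth ψ)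
    (h1 : ∀ y, |ψ y| ≤ 1) (r : ℝ) : ∃ B ≥ (1 : ℝ), ∀ (w : E n → ℝ) (e : ℝ) (y : E n),
      Stmt.Smooth w → ‖y‖ ≤ r → |w y| ≤ e → ‖fderiv ℝ w y‖ ≤ e → P366Z.lap G w y = 0 →
      P366Z.gn G (fun z => ψ z * w z + 1) y ≤ B * e ∧
        |P366Z.lap G (fun z => ψ z * w z + 1) y| ≤ B * e := by
  obtain ⟨A, A0, hA⟩ := P366Y.A.PreH.bound hG ⟨hG.sm, hG.sy⟩ hψ r
  obtain ⟨B, hB⟩ := (isCompact_closedBall (0 : E n) r).exists_bound_of_continuousOn
    (hG.sm_lap hψ).cont.continuousOn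
  have B0 := abs_nonneg B
  refine ⟨1 + 2 * A + |B| + 2 * A * A, by nlinarith, fun w e y hw hy w0 w1 w2 => ?_⟩
  have e0 : 0 ≤ e := (abs_nonneg _).trans w0
  obtain ⟨-, b1, b2⟩ := hA y hy
  have b3 := b2 w e hw w1
  have b4 : |P366Z.lap G ψ y| ≤ |B| := (hB y (by simpa using hy)).trans (le_abs_self B)
  have c1 := mul_nonneg A0.le e0
  have c2 := mul_nonneg B0 e0
  have c3 := mul_nonneg A0.le c1
  constructor
  · have k := hG.gn_add_le (x := y) (u := fun z => ψ z * w z + 1) (u₁ := fun z => w y * ψ z)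
      (u₂ := fun z => ψ y * w z) fun i => by
        rw [P366Z.pd_add_const, P366Z.pd_mul (hψ.diff y) (hw.diff y), P366Z.pd_const_mul,
          P366Z.pd_const_mul, mul_comm]
    rw [P366Z.gn_of_pd (P366Z.pd_const_mul _), P366Z.gn_of_pd (P366Z.pd_const_mul _)] at k
    have k1 := mul_le_mul w0 b1 (P366Z.gn_nonneg _ _ _) e0
    have k2 := mul_le_mul (h1 y) b3 (P366Z.gn_nonneg _ _ _) zero_le_one
    nlinarith
  · rw [P366Z.lap_add_const, hG.lap_mul (hψ.c2 y) (hw.c2 y), w2, mul_zero, add_zero]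
    refine (abs_add_le _ _).trans ?_
    rw [abs_mul, abs_mul, abs_two]
    have k1 := mul_le_mul w0 b4 (abs_nonneg _) e0
    have k2 := (hG.abs_ip_le ψ w y).trans (mul_le_mul b1 b3 (P366Z.gn_nonneg _ _ _) A0.le)
    nlinarith

/-- **USK** -/
theorem usk : USK := by
  intro n M _ g q C R m hB R' e he
  have h0 := R0_ge M
  have R1 := hB.R1
  have hG := met_xg hB.met
  have hγ := one_lt_gam hB.dim
  obtain ⟨χ, sχ, χ01, χ1, χ0⟩ := P366Y.A.Fin1.ex_chi (n := n) (a := R0 M + 1) (b := R0 M + 3 / 2)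
    (by linarith) (by linarith)
  have sψ : Stmt.Smooth fun y => 1 - χ y := contDiff_const.sub sχ
  have ψ1 : ∀ y, |1 - χ y| ≤ 1 := fun y => abs_le.2 ⟨by linarith [χ01 y], by linarith [χ01 y]⟩
  obtain ⟨B, B1, hb⟩ := UskH.core hG sψ ψ1 R'
  obtain ⟨ρ₁, h1⟩ := P366Y.A.usk n _ q C R m hB.old R' (e / B) (by positivity)
  obtain ⟨K, -, ρ₂, h2⟩ := P366Y.A.fek n _ q C R m hB.old
  have eB : e / B ≤ e := div_le_self he.le B1
  refine ⟨max (max ρ₁ ρ₂) (R' + 1), fun ρ hρ => ?_⟩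
  simp only [ge_iff_le, max_le_iff] at hρ
  obtain ⟨u, β, u1, u2, u3, u4, u5, u6⟩ := h1 ρ hρ.1.1
  have sw : Stmt.Smooth fun y => u y - 1 := ContDiff.sub u1 contDiff_const
  obtain ⟨b, hb'⟩ : ∃ b : E n → ℝ, b = fun y => (1 - χ y) * (u y - 1) + 1 := ⟨_, rfl⟩
  have b1 : ∀ y, ‖y‖ < R0 M + 1 → b y = 1 := fun y hy => by
    rw [hb']
    simp only [(χ1 y hy).eq_of_nhds, sub_self, zero_mul, zero_add]
  have b2 : ∀ y, R0 M + 3 / 2 < ‖y‖ → b =ᶠ[𝓝 y] u := fun y hy =>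
    (ev_lt_norm hy).mono fun z hz => by
      rw [hb']
      simp only [χ0 z hz.le, sub_zero, one_mul, sub_add_cancel]
  have sb : Stmt.Smooth b := hb' ▸ ContDiff.add (ContDiff.mul sψ sw) contDiff_const
  refine ⟨fun x => b (px x), β, smooth_px sb, fun x => ?_, fun x hx => ?_, fun x hx => ?_, ?_,
    by linarith⟩
  · rw [hb']
    simp only [add_sub_cancel_right, abs_mul]
    exact (mul_le_of_le_one_left (abs_nonneg _) (ψ1 _)).trans ((u2 _).trans eB)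
  · have k := hb _ (e / B) (px x) sw hx (u2 _) (by rw [fderiv_sub_const]; exact u3 _ hx) (by
      have := u4 (px x)
      rw [((h2 ρ hρ.1.2).2 _).1 (.inl (by linarith)), zero_mul,
        P366Z.lap_of_ev (St0.Cutm.gc_ev (by linarith))] at this
      rw [show (fun y => u y - 1) = fun y => u y + -1 from rfl, P366Z.lap_add_const]
      exact (mul_eq_zero.1 this).resolve_left (by positivity))
    rw [← hb', mul_div_cancel₀ _ (by positivity)] at k
    rw [(tw_xg g).gn_px b1, (tw_xg g).lap_px b1]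
    refine ⟨k.1, k.2, fun hx' => ?_⟩
    rw [fd_px_core b1, (b2 _ (by linarith)).fderiv_eq]
    exact (u3 _ hx).trans eB
  · have k := b2 (px x) (by linarith)
    beta_reduce
    rw [((tw_xg g).gc ρ).lap_px b1, (tw_xg g).er ρ (by linarith), P366Z.lap_congr k, k.eq_of_nhds]
    exact u4 _
  · exact (tw_px b).asy.2 ((P366Z.asy n u b 1 1 β β hB.dim u1 sb u5).2.2.2.1
      ⟨R0 M + 2, fun y hy => (b2 y (by linarith)).eq_of_nhds⟩)

end Vale.Agent.P366M.Y.A
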